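import Vale.Agent.P022D.Gt.Nat
import Vale.Agent.P022D.Nw.Defs

/-!
# P022S, block Gt: Galois operators on all tuples, no unit trace (definitions and statements)
-/

set_option linter.all false

open Matrix
open scoped MatrixGroups

noncomputable section

namespace Vale.Agent.P022S.Gt

open Vale.Agent.P022 Vale.Agent.P022D.V Vale.Agent.P022.H853
open Vale.Agent.P022D.G (Wd sg PS PS0 KilN AL1 Law Inert)
open Vale.Agent.P022D.Gt (Lv)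
open Vale.Agent.P022D.Nw (Dn)

/-- **GAL2** without a unit among the Hecke operators -/
def GAL2s : Prop := ∀ (N : ℕ) [NeZero N], Odd N → ∀ K : Finset ℕ, (∀ i ∈ K, 1 ≤ i) →
  ∀ (B : Type) [CommRing B] (s : ℕ), (2 : B) ^ s = 0 → ∀ β : Wd N →+* B,
  (∀ Q, (∀ i ∈ K, sg N i Q = 0) → β Q = 0) → ∃ t d, PS N β t d

/-- **I2N** without a unit among the Hecke operators -/
def I2Ns : Prop := ∀ (M q : ℕ) [NeZero (M * q)], Odd (M * q) → q.Prime → ¬ q ∣ M →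
  ∀ γ : SL(2, ℤ), AL1 M q γ → ∀ K : Finset ℕ, (∀ i ∈ K, 1 ≤ i) →
  ∀ (B : Type) [CommRing B] (s : ℕ), (2 : B) ^ s = 0 → ∀ β : Wd (M * q) →+* B,
  (∀ Q, KilN M q γ K Q → β Q = 0) →
  ∀ t d, PS0 (M * q) β t d → ∀ φ, IsFrob q φ → q * t φ ^ 2 = (q + 1) ^ 2 * (d φ : B)

variable (O : Type) [CommRing O] [Co O]

/-- **the carrier**: all of `XD` (the prime `ℓ₀` plays no role) -/
abbrev Xo (M i ℓ₀ : ℕ) : Submodule O (FT M (RD O)) := XD O M i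

variable {O}

/-- **the Galois operators** on the carrier -/
structure Ga (M : ℕ) [NeZero M] (i ℓ₀ : ℕ) (t d : GQ → Module.End O (Xo O M i ℓ₀)) : Prop where
  law : Law t d
  frT : ∀ (p : ℕ) (u : (ZMod M)ˣ) φ, p.Prime → p ≠ 2 → (u : ZMod M) = p → IsFrob p φ →
    ∀ v, (t φ v : FT M (RD O)) = T2 O _ i p u v
  frS : ∀ (p : ℕ) (u : (ZMod M)ˣ) φ, p.Prime → p ≠ 2 → (u : ZMod M) = p → IsFrob p φ →
    ∀ v, (d φ v : FT M (RD O)) = S2 O _ i p u v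
  unr : ∀ p : ℕ, p.Prime → ¬ p ∣ 2 * M → ∀ σ, Inert p σ → d σ = 1 ∧ ∀ g, t (g * σ) = t g
  fin : ∀ v, ∃ s : Finset (Xo O M i ℓ₀), v ∈ s ∧ ∀ w ∈ s,
    (∀ g, t g w ∈ s ∧ d g w ∈ s) ∧ ∀ (h : GM M) (w' : Xo O M i ℓ₀),
      (w' : FT M (RD O)) = rt O _ h w → w' ∈ s
  det : ∀ (a p : ℕ) (g : GQ) (v : Xo O M i ℓ₀), 2 ^ a • v = 0 → Odd p →
    (∀ ζ : Qb, ζ ^ 2 ^ (a + 1) = 1 → g ζ = ζ ^ p) →
    (d g v : FT M (RD O)) = S2 O _ i p (cyc M g) v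
  dc : ∀ c, IsConj c → d c = -1
  i1 : ∀ M₀ q, Sp M M₀ q → ∀ σ, Inert q σ → ∀ v : Xo O M i ℓ₀,
    (v : FT M (RD O)) ∈ Iv O _ (Uq M M₀) →
    (t σ v : FT M (RD O)) = rt O _ (dg (cyc M σ) 1) v + rt O _ (dg 1 (cyc M σ)) v

variable (O)

/-- **GT** -/
def GT : Prop := ∀ (M : ℕ) [NeZero M] (i ℓ₀ : ℕ), Lv M ℓ₀ →
  ∃ t d : GQ → Module.End O (Xo O M i ℓ₀), Ga M i ℓ₀ t d

/-- a Galois module inside the tuples: Frobenius elements act by `T2`, `S2` -/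
structure Gv {O' Y : Type} [CommRing O'] [AddCommGroup Y] [Module O' Y]
    (t d : GQ → Module.End O' Y) (R : Type) [CommRing R] [Algebra O R] (M i : ℕ)
    (ι : Y →+ FT M R) : Prop where
  law : Law t d
  inj : Function.Injective ι
  fr : ∃ S : Finset ℕ, ∀ (p : ℕ) (u : (ZMod M)ˣ) (φ : GQ), p.Prime → p ∉ S → (u : ZMod M) = p →
    IsFrob p φ → ∀ v, ι (t φ v) = T2 O R i p u (ι v) ∧ ι (d φ v) = S2 O R i p u (ι v)

/-- **new vectors are killed by `D²`**, divisible carrier -/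
def NEWD : Prop := ∀ (M M₀ q i : ℕ) (s : GM M), Sp M M₀ q → 3 ≤ M → IsS M M₀ s →
  ∀ (O' Y : Type) [CommRing O'] [AddCommGroup Y] [Module O' Y] (t d : GQ → Module.End O' Y)
  (ι : Y →+ FT M (RD O)), Gv O t d (RD O) M i ι → ∀ φ, IsFrob q φ →
  ∀ v, ι v ∈ XD O M i ⊓ Iv O _ (Bq M M₀) → (1 + Ts O _ M₀ q s) (ι v) = 0 →
    (1 + Ts O _ M₀ q s) (W2 O _ M M₀ q (zD O M) i (ι v)) = 0 → Dn t d q φ (Dn t d q φ v) = 0

end Vale.Agent.P022S.Gt
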