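import Vale.Agent.P022S.Gt.Nat
import Vale.Agent.P022D.Nw.All
import Vale.Agent.P022D.Gt.Clgd

/-!
# P022S, new vectors are killed by the square of `q t(φ)² - (q + 1)² d(φ)`
-/

set_option linter.all false

open Matrix
open scoped MatrixGroups

noncomputable section

namespace Vale.Agent.P022S.Gt

open Vale.Agent.P022 Vale.Agent.P022D Vale.Agent.P022D.V Vale.Agent.P022.H853
open Vale.Agent.P022D.G hiding Dsc Fq Core ex_core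
open Vale.Agent.P022D.Nw hiding tw newA newG Gv NEWD

section alg

variable {O P C : Type} [CommRing O] [AddCommGroup P] [Module O P] [CommGroup C]

/-- the pseudo-character on a quotient, twisted by `χ` -/
theorem tw {N : ℕ} [NeZero N] (H : GAL2s) (hN : Odd N) (ρ : Wd N →+* Module.End O P)
    (r : C →* Module.End O P) (χ : GQ →* C) (hχ : IsOpen (χ.ker : Set GQ)) (N0 : Submodule O P)
    (hρ : ∀ Q, ∀ x ∈ N0, ρ Q x ∈ N0) (hr : ∀ b, ∀ x ∈ N0, r b x ∈ N0)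
    (cm : ∀ b Q, Commute (r b) (ρ Q)) (K : Finset ℕ) (hK : ∀ i ∈ K, 1 ≤ i) (n : ℕ)
    (two : ∀ x, 2 ^ n • x ∈ N0) (kil : ∀ Q, (∀ i ∈ K, sg N i Q = 0) → ∀ x, ρ Q x ∈ N0) :
    ∃ (V : Type) (_ : AddCommGroup V) (_ : Module O V) (π : P →ₗ[O] V)
      (α : Wd N →+* Module.End O V) (c t d : GQ → Module.End O V), Core α t d ∧ Dsc α ∧
      Law (fun g => c g * t g) (fun g => c g * c g * d g) ∧ (∀ Q x, π (ρ Q x) = α Q (π x)) ∧
      (∀ g x, π (r (χ g) x) = c g (π x)) ∧ (∀ x, π x = 0 → x ∈ N0) ∧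
      (∀ x ∈ N0, π x = 0) ∧ (∀ g Q, Commute (c g) (α Q)) ∧
      ∀ q φ, Dn (fun g => c g * t g) (fun g => c g * c g * d g) q φ = c φ * c φ * Dn t d q φ := by
  let N1 := N0
  have le : ∀ x ∈ N0, x ∈ N1 := fun x e => e
  have h1 := hρ
  have h2 := hr
  let α : Wd N →+* Module.End O (P ⧸ N1) :=
    { qH ρ.toMonoidHom N1 h1 with
      map_zero' := LinearMap.ext fun x => by
        obtain ⟨x, rfl⟩ := N1.mkQ_surjective x
        show N1.mkQ (ρ 0 x) = 0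
        simp
      map_add' := fun a b => LinearMap.ext fun x => by
        obtain ⟨x, rfl⟩ := N1.mkQ_surjective x
        show N1.mkQ (ρ (a + b) x) = N1.mkQ (ρ a x) + N1.mkQ (ρ b x)
        simp }
  have eα : ∀ Q x, N1.mkQ (ρ Q x) = α Q (N1.mkQ x) := fun _ _ => rfl
  have z : ∀ x, N1.mkQ x = 0 ↔ x ∈ N1 := fun x => Submodule.Quotient.mk_eq_zero N1
  have ds : Dsc α := by
    refine ⟨fun v => ⟨K, n, hK, ?_, fun Q hQ => ?_⟩⟩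
    · obtain ⟨x, rfl⟩ := N1.mkQ_surjective v
      rw [← map_nsmul, z]
      exact le _ (two x)
    · obtain ⟨x, rfl⟩ := N1.mkQ_surjective v
      rw [← eα, z]
      exact le _ (kil Q hQ x)
  obtain ⟨t, d, co⟩ := ex_core H hN ds
  let c : GQ →* Module.End O (P ⧸ N1) := (qH r N1 h2).comp χ
  have ec : ∀ g x, N1.mkQ (r (χ g) x) = c g (N1.mkQ x) := fun _ _ => rfl
  have ca : ∀ g Q, Commute (c g) (α Q) := fun g Q => LinearMap.ext fun v => by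
    obtain ⟨x, rfl⟩ := N1.mkQ_surjective v
    show N1.mkQ ((r (χ g) * ρ Q) x) = N1.mkQ ((ρ Q * r (χ g)) x)
    rw [(cm _ _).eq]
  have cc : ∀ g k, Commute (c g) (c k) := fun g k => (Commute.all (χ g) (χ k)).map (qH r N1 h2)
  have ct : ∀ g k, Commute (c g) (t k) := fun g k => LinearMap.ext fun v =>
    (co.cm (f := c g) (fun Q v => LinearMap.congr_fun (ca g Q).eq v) k v).1
  have cd : ∀ g k, Commute (c g) (d k) := fun g k => LinearMap.ext fun v =>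
    (co.cm (f := c g) (fun Q v => LinearMap.congr_fun (ca g Q).eq v) k v).2
  refine ⟨P ⧸ N1, inferInstance, inferInstance, N1.mkQ, α, c, t, d, co, ds,
    co.law.twist c cc ct cd fun v => ⟨χ.ker, inferInstance, hχ, fun u hu => ?_⟩, eα, ec,
    fun x e => (z x).1 e, fun x e => (z x).2 (le x e), ca, fun q φ => ?_⟩
  · rw [MonoidHom.comp_apply, MonoidHom.mem_ker.1 hu, map_one]
    rfl
  · simp only [Dn, mul_sub, mul_smul_comm]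
    rw [mul_assoc (c φ) (t φ), ← mul_assoc (t φ), ← (ct φ φ).eq]
    simp only [mul_assoc]

/-- **the three modules** -/
theorem newA {M q : ℕ} [NeZero M] [NeZero (M * q)] (H : GAL2s) (H' : I2Ns) (ho : Odd (M * q))
    (hq : q.Prime) (hM : ¬ q ∣ M) {γ : SL(2, ℤ)} (hγ : AL1 M q γ)
    (ρ : Wd (M * q) →+* Module.End O P) (ρ0 : Wd M →+* Module.End O P) (j : PA (M * q) → PA M)
    (hj : ∀ ℓ, (j ℓ).1 = ℓ.1) (jT : ∀ ℓ, ρ0 (wT (j ℓ)) = ρ (wT ℓ))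
    (jS : ∀ ℓ, ρ0 (wS (j ℓ)) = ρ (wS ℓ)) (lq : PA M) (hlq : lq.1 = q)
    (r : C →* Module.End O P) (χ : GQ →* C) (hχ : IsOpen (χ.ker : Set GQ)) (N1 K : Submodule O P)
    (a1 : ∀ Q, ∀ x ∈ N1, ρ Q x ∈ N1) (a2 : ∀ Q, ∀ x ∈ N1, ρ0 Q x ∈ N1)
    (a3 : ∀ b, ∀ x ∈ N1, r b x ∈ N1) (b2 : ∀ Q, ∀ x ∈ K, ρ0 Q x ∈ K)
    (b3 : ∀ b, ∀ x ∈ K, r b x ∈ K) (cm : ∀ b Q, Commute (r b) (ρ Q))
    (cm0 : ∀ b Q, Commute (r b) (ρ0 Q)) (W : Finset ℕ) (hW : ∀ i ∈ W, 1 ≤ i) (n : ℕ)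
    (two : ∀ x, 2 ^ n • x ∈ N1) (kil : ∀ Q, (∀ i ∈ W, sg (M * q) i Q = 0) → ∀ x, ρ Q x ∈ N1)
    (kil0 : ∀ Q, (∀ i ∈ W, sg M i Q = 0) → ∀ x, ρ0 Q x ∈ K)
    (kiln : ∀ Q, KilN M q γ W Q → ∀ x ∈ K, ρ Q x ∈ N1)
    {O' Y E : Type} [CommRing O'] [AddCommGroup Y] [Module O' Y] [AddCommGroup E]
    {t d : GQ → Module.End O' Y} (law : Law t d) (ι : Y →+ E) (hι : Function.Injective ι)
    (Φ : P →+ E) (hΦ : ∀ x, Φ x = 0 ↔ x ∈ N1) (S : Finset ℕ)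
    (fr : ∀ (ℓ : PA (M * q)) φ, ℓ.1 ∉ S → IsFrob ℓ.1 φ → ∀ v x, ι v = Φ x →
      ι (t φ v) = Φ (r (χ φ) (ρ (wT ℓ) x)) ∧ ι (d φ v) = Φ (r (χ φ) (r (χ φ) (ρ (wS ℓ) x))))
    {φ : GQ} (hφ : IsFrob q φ) {v : Y} {x : P} (e : ι v = Φ x)
    (hx : (q • (ρ0 (wT lq) * ρ0 (wT lq)) - (q + 1) ^ 2 • ρ0 (wS lq)) x ∈ N1) :
    Dn t d q φ (Dn t d q φ v) = 0 := by
  classical
  obtain ⟨V1, _, _, π1, α1, c1, t1, d1, co1, ds1, l1, e1, ec1, z1, z1', ca1, dn1⟩ :=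
    tw H ho ρ r χ hχ N1 a1 a3 cm W hW n two kil
  have st : ∀ f : Module.End O P, (∀ x ∈ K, f x ∈ K) → (∀ x ∈ N1, f x ∈ N1) →
      ∀ x ∈ K ⊔ N1, f x ∈ K ⊔ N1 := fun f u1 u2 x hx => by
    obtain ⟨y, hy, z, hz, rfl⟩ := Submodule.mem_sup.1 hx
    rw [map_add]
    exact Submodule.add_mem_sup (u1 y hy) (u2 z hz)
  obtain ⟨V0, _, _, π0, α0, c0, t0, d0, co0, ds0, l0, e0, ec0, z0, z0', ca0, dn0⟩ :=
    tw H (Nat.odd_mul.1 ho).1 ρ0 r χ hχ (K ⊔ N1) (fun Q => st _ (b2 Q) (a2 Q))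
      (fun b => st _ (b3 b) (a3 b)) cm0 W hW n (fun x => Submodule.mem_sup_right (two x))
      (fun Q hQ x => Submodule.mem_sup_left (kil0 Q hQ x))
  let A : ∀ {V : Type} [AddCommGroup V] [Module O V], (P →ₗ[O] V) → AddSubgroup (Y × V) :=
    fun π =>
    { carrier := {y | ∃ x, ι y.1 = Φ x ∧ π x = y.2}
      zero_mem' := ⟨0, by simp, by simp⟩
      add_mem' := by
        rintro y y' ⟨x, a, b⟩ ⟨x', a', b'⟩
        exact ⟨x + x', by simp [a, a'], by simp [b, b']⟩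
      neg_mem' := by
        rintro y ⟨x, a, b⟩
        exact ⟨-x, by simp [a], by simp [b]⟩ }
  let S' := S ∪ (2 * (M * q)).primeFactors
  have pa : ∀ ℓ : ℕ, ℓ.Prime → ℓ ∉ S' → ∃ l : PA (M * q), l.1 = ℓ ∧ l.1 ∉ S := fun ℓ hl hS =>
    ⟨⟨ℓ, hl, fun h => hS (Finset.mem_union_right _ (Nat.mem_primeFactors.2
      ⟨hl, h, mul_ne_zero two_ne_zero (NeZero.ne _)⟩))⟩, rfl,
      fun h => hS (Finset.mem_union_left _ h)⟩
  have r1 := fun v w h => law_rel law l1 (A π1) S' (by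
    rintro ℓ ψ hl hS hψ v _ ⟨x, a, rfl⟩
    obtain ⟨l, rfl, hl'⟩ := pa ℓ hl hS
    obtain ⟨u1, u2⟩ := fr l ψ hl' hψ v x a
    exact ⟨⟨_, u1, by rw [ec1, e1, co1.frT l hψ]; rfl⟩,
      ⟨_, u2, by rw [ec1, ec1, e1, co1.frS l hψ]; rfl⟩⟩) φ (v := v) (w := w) h
  have r0 := fun v w h => law_rel law l0 (A π0) S' (by
    rintro ℓ ψ hl hS hψ v _ ⟨x, a, rfl⟩
    obtain ⟨l, rfl, hl'⟩ := pa ℓ hl hS
    obtain ⟨u1, u2⟩ := fr l ψ hl' hψ v x a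
    exact ⟨⟨_, u1, by rw [ec0, ← jT, e0, co0.frT (j l) (hj l ▸ hψ)]; rfl⟩,
      ⟨_, u2, by rw [ec0, ec0, ← jS, e0, co0.frS (j l) (hj l ▸ hψ)]; rfl⟩⟩) φ (v := v) (w := w) h
  obtain ⟨y, hy, hy0⟩ := dn_rel (t := t) (d := d) (t' := fun g => c0 g * t0 g)
    (d' := fun g => c0 g * c0 g * d0 g) (φ := φ) r0 q (show (v, π0 x) ∈ A π0 from ⟨x, e, rfl⟩)
  have k0 : Dn t0 d0 q φ (π0 x) = 0 := by
    rw [← z0' _ (Submodule.mem_sup_right hx), Dn, co0.frT lq (hlq ▸ hφ), co0.frS lq (hlq ▸ hφ)]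
    simp only [LinearMap.sub_apply, LinearMap.smul_apply, Module.End.mul_apply, map_sub, map_nsmul,
      e0]
  rw [dn0, Module.End.mul_apply, k0, map_zero] at hy0
  obtain ⟨y1, u1, y2, u2, u3⟩ := Submodule.mem_sup.1 (z0 y hy0)
  have k1 := co1.i2 H' ho hq hM hγ hW (v := π1 y) (fun Q hQ => by
    rw [← u3, map_add, z1' _ u2, add_zero, ← e1]
    exact z1' _ (kiln Q hQ _ u1)) hφ
  have k2 : Dn t1 d1 q φ (π1 y) = 0 := by
    simp only [Dn, LinearMap.sub_apply, LinearMap.smul_apply, Module.End.mul_apply, k1, sub_self]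
  obtain ⟨w, hw, hw0⟩ := dn_rel (t := t) (d := d) (t' := fun g => c1 g * t1 g)
    (d' := fun g => c1 g * c1 g * d1 g) (φ := φ) r1 q (show (_, π1 y) ∈ A π1 from ⟨y, hy, rfl⟩)
  rw [dn1, Module.End.mul_apply, k2, map_zero] at hw0
  exact hι (hw.trans (((hΦ w).2 (z1 w hw0)).trans (map_zero ι).symm))

end alg

variable {O : Type} [CommRing O] [Co O] {M M₀ q : ℕ} {R : Type} [CommRing R] [Algebra O R]

theorem newG (H1 : GAL2s) (H2 : I2Ns) (hG : Gt.CLG O) (hN : CLN O) (h : Sp M M₀ q) {s : GM M} (hs : IsS M M₀ s)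
    (φ : AA O →ₗ[O] R) {z : R} (hz : ∀ x, φ (zA O M * x) = z * φ x) {n : ℕ}
    (hn : ∀ x, (2 : O) ^ (n + 1) • φ x = 0) {i j : ℕ} (hj : 1 ≤ j) (hij : j ≡ i [MOD 2 ^ (n + 1)])
    {O' Y : Type} [CommRing O'] [AddCommGroup Y] [Module O' Y] {t d : GQ → Module.End O' Y}
    {ι : Y →+ FT M R} (gv : Gv O t d R M i ι) {ψ : GQ} (hψ : IsFrob q ψ) {v : Y}
    {x : FT M (AA O)} (hx : x ∈ PL O M M₀ j) (e : ι v = ml O M φ x)
    (n1 : (1 + Ts O _ M₀ q s) (ι v) = 0) (n2 : (1 + Ts O _ M₀ q s) (W2 O _ M M₀ q z i (ι v)) = 0) :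
    Dn t d q ψ (Dn t d q ψ v) = 0 := by
  haveI : NeZero M := ⟨h.Mpos.ne'⟩
  haveI : NeZero (M₀ ^ 2) := ⟨pow_ne_zero _ h.M0pos.ne'⟩
  haveI : NeZero (M₀ ^ 2 * q) := ⟨mul_ne_zero (NeZero.ne _) h.qpos.ne'⟩
  obtain ⟨-, -, -, uM, -⟩ := root O M h.odd
  have qM : ¬ q ∣ M₀ ^ 2 := fun a =>
    (h.prime.coprime_iff_not_dvd.1 h.cop.symm) (h.prime.dvd_of_dvd_pow a)
  obtain ⟨γ, g1, g2⟩ := P027M.J.exists_AL (M := M₀ ^ 2) (q := q)
    (Nat.isCoprime_iff_coprime.2 (h.prime.coprime_iff_not_dvd.2 qM).symm)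
  have hγ : AL1 (M₀ ^ 2) q γ := ⟨g1.c, g2, g1.d⟩
  obtain ⟨c, hc⟩ := (grp M M₀ q h).2.1
  obtain ⟨qi, hqi⟩ : ∃ qi : O, qi * q = 1 := by
    rw [h.eq, Nat.cast_mul] at uM
    exact (isUnit_of_mul_isUnit_right uM).exists_left_inv
  have H : Su M M₀ q s c qi φ z := ⟨h, hs, hc, hqi, hz⟩
  let Φ : PL O M M₀ j →ₗ[O] FT M R := ml O M φ ∘ₗ (PL O M M₀ j).subtype
  have tor : ∀ w, (2 : O) ^ (n + 1) • ml O M φ w = 0 := fun w => by
    ext g m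
    rw [Pi.smul_apply, PowerSeries.coeff_smul, ml_coeff, hn]
    rfl
  have hp : ∀ p, Odd p → ∀ m w, ml O M φ ((p ^ (j + m) : ℕ) • pw O _ M j p w) =
      (p ^ (i + m) : ℕ) • pw O _ M i p (ml O M φ w) := fun p ho m w => by
    rw [map_nsmul, Cd.smul_cg (tor _) (Cd.pow_cg ho (hij.add_right m)), ml_pw, pw, pw,
      Tr.ep_cong (hij.add_right 1)]
  obtain ⟨S, fr⟩ := gv.fr
  have gK : ∀ (A : Gd M M₀ j φ), ∀ w ∈ LinearMap.ker Φ, res M M₀ j φ A w ∈ LinearMap.ker Φ :=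
    fun A w hw => A.2.2.1 _ hw
  have lq : ¬ q ∣ 2 * M₀ ^ 2 := fun a => (h.prime.dvd_mul.1 a).elim
    (fun b => Nat.not_even_iff_odd.2 h.qodd
      (((Nat.prime_dvd_prime_iff_eq h.prime Nat.prime_two).1 b).symm ▸ even_two)) qM
  refine newA H1 H2 ((Ih.odd_M0 h).pow.mul h.qodd) h.prime qM hγ (H.ρ j) (H.ρ0 j) (jm M₀ q)
    (fun _ => rfl) (fun ℓ => congrArg (H.ρ0 j) (einc (Sum.inl ℓ)).symm)
    (fun ℓ => congrArg (H.ρ0 j) (einc (Sum.inr ℓ)).symm)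
    ⟨q, h.prime, lq⟩ rfl ((res M M₀ j φ).toMonoidHom.comp (rD h j φ)) (cyc M) (isOpen_cyc M)
    (LinearMap.ker Φ) (H.K j) (fun Q => gK _) (fun Q => gK _) (fun b => gK _) ?_ ?_
    (fun b Q => H.cr j b _) (fun b Q => H.cr j b _) {j, j + 1} (by simp; omega) (n + 1) ?_
    (fun Q hQ w => (congrArg (ml O M φ) (H.kil j hG Q hQ w)).trans (map_zero _)) (H.kil0 j hG)
    (fun Q hQ w hw => (congrArg (ml O M φ) (H.kiln j hN hj hγ Q hQ w hw)).trans (map_zero _))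
    gv.law ι gv.inj Φ.toAddMonoidHom (fun _ => Iff.rfl) S ?_ hψ
    (x := ⟨x, hx⟩) e (H.dz j _ rfl ?_ ?_)
  · intro Q w hw
    rw [H.mK] at hw
    exact H.k12 j Q w (hw.1.trans (map_zero _).symm) (hw.2.trans (map_zero _).symm) (map_zero _)
      (map_zero _)
  · intro b w hw
    exact ⟨(LinearMap.congr_fun (H.cr j b _).eq w).symm.trans (by
        rw [Module.End.mul_apply, LinearMap.mem_ker.1 hw.1, map_zero]),
      (LinearMap.congr_fun (H.cr j b _).eq w).symm.trans (by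
        rw [Module.End.mul_apply, LinearMap.mem_ker.1 hw.2, map_zero])⟩
  · intro w
    rw [LinearMap.mem_ker, map_nsmul, ← Nat.cast_smul_eq_nsmul O, Nat.cast_pow, Nat.cast_ofNat]
    exact tor _
  · intro ℓ ψ hl hψ v w (a : ι v = ml O M φ w)
    have hu := hU h c _ (jq ℓ)
    have ec : cyc M ψ = _ := Units.ext ((cyc_frob ℓ.2.1
      (ℓ.2.1.coprime_iff_not_dvd.1 (cop h _ (jq ℓ))) hψ).trans hu.symm)
    obtain ⟨f1, f2⟩ := fr ℓ.1 _ ψ ℓ.2.1 hl hu hψ v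
    rw [f1, f2, a, ec, ← (Cd.nt_ml φ).T2 (i := i) (j := j) (hp _ (Cd.pa_odd ℓ) 0),
      ← (Cd.nt_ml φ).S2 (i := i) (j := j) (hp _ (Cd.pa_odd ℓ) 0)]
    constructor
    · show _ = ml O M φ (rt O _ (dg 1 _) (H.ρ j (wT ℓ) w))
      rw [H.lT, rt_T2, rt_rt, V.dg_mul, mul_one, mul_inv_cancel, V.dg_one, rt_one]
    · show _ = ml O M φ (rt O _ (dg 1 _) (rt O _ (dg 1 _) (H.ρ j (wS ℓ) w)))
      rw [H.lS, rt_S2, rt_S2, rt_rt, rt_rt, V.dg_mul, V.dg_mul, mul_one, mul_one, mul_assoc,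
        mul_inv_cancel_left, mul_inv_cancel, V.dg_one, rt_one]
  · show ml O M φ (x + Ts O _ M₀ q s x) = 0
    rw [map_add, ml_Ts, ← e]
    exact n1
  · show ml O M φ (W2 O _ M M₀ q _ j x + Ts O _ M₀ q s (W2 O _ M M₀ q _ j x)) = 0
    rw [map_add, ml_Ts, W2_apply, map_add, ← map_nsmul, ml_Wa, hp q h.qodd 1, map_nsmul,
      ml_Wb φ M₀ q hz, ← e]
    exact n2

variable (O)

theorem newd0 (H1 : GAL2s) (H2 : I2Ns) (hG : Gt.CLG O) (hN : CLN O) : NEWD O := by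
  intro M M₀ q i s h h3 hs O' Y _ _ _ t d ι gv ψ hψ v hv n1 n2
  obtain ⟨p1, -, p3, p4, -⟩ := All.div O M h.odd h3
  obtain ⟨n, a⟩ := (p4 i _ hv.1).1
  have h0 := Dv.two_pow_ne (O := O) n
  obtain ⟨x, c, ex⟩ := ((p3 i _ h0).2 _).1 ⟨hv.1, a⟩
  obtain ⟨k, a, a2, w, hw, e⟩ := (lift O M (i + 1) (n + 1) _ h.odd h3 h0
    { carrier := Bq M M₀, one_mem' := Wq.one_B, mul_mem' := Wq.B_mul h.dvd,
      inv_mem' := Wq.B_inv h.dvd } (fun _ => 1) rfl (fun _ _ _ _ => (mul_one _).symm)).1 x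
    ⟨c.1, fun g hg => p1 _ h0 (by rw [ml_rt, ex, hv.2 g hg, map_smul, ex])⟩
  obtain ⟨j, rfl⟩ : ∃ j, k = j + 1 := ⟨k - 1, by omega⟩
  refine newG H1 H2 hG hN h hs (dv0 ((2 : O) ^ n)) (z := zD O M) (fun x => ?_) (n := n) (fun x => ?_)
    (j := j) (by omega) (Nat.ModEq.add_right_cancel' 1 a) gv hψ hw ?_ n1 n2
  · exact (Tr.dv_mul (ϖ := (2 : O) ^ n) (zA O M) (Ideal.Quotient.mk _ x)).symm
  · show _ • dv ((2 : O) ^ n) (Ideal.Quotient.mk _ x) = 0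
    rw [pow_succ', mul_smul, ← map_smul, Algebra.smul_def ((2 : O) ^ n),
      ← Ideal.Quotient.mk_algebraMap,
      Ideal.Quotient.eq_zero_iff_mem.2 (Ideal.mem_span_singleton_self _), zero_mul, map_zero,
      smul_zero]
  · rw [← ex, ← e]
    ext g m
    rw [ml_coeff, ml_coeff, Tr.red_coeff]
    rfl

/-- **NEWD** -/
theorem newd (H1 : GAL2s) (H2 : I2Ns) : NEWD O := newd0 O H1 H2 (Gt.clg O) (cln O)

/-- **GT** -/
theorem gtC (H1 : GAL2s) : GT O :=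
  gt (Gt.clgd O (Gt.clg O) (V.lift O) (V.All.div O)) (V.All.div O) (V.All.hkv O) H1

end Vale.Agent.P022S.Gt
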