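import Vale.Agent.P022E.Fm.GopC
import Vale.Agent.P022S.Gt.New

/-!
# P022S, forms side: row GOP without a unit trace
-/

set_option linter.all false

open IsLocalRing Matrix
open scoped MatrixGroups NumberField Pointwise

noncomputable section

namespace Vale.Agent.P022E.Fm

open Vale.Agent.P022 Vale.Agent.P022D.V Vale.Agent.P022E.V Vale.Agent.P022.H853
open Vale.Agent.P022D.G (Wd wT wS Inert)
open Vale.Agent.P022S.Gt (Xo Ga)

/-- what the construction of the Galois operators uses -/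
structure Su.Hy {O F : Type} [CommRing O] [Field F] [IsLocalRing O] [Co O] (U : Su O F) : Prop where
  ker : ∀ c, U.S.red c = 0 ↔ c ∈ maximalIdeal O
  uni : Unif U.ϖ
  unr : ∀ l : ℕ, l.Prime → l ∉ U.S.T → ∀ g, Inert l g → U.L.r g = 1
  tr0 : ∀ g, U.S.red (U.L.r g).trace = 0
  dt1 : ∀ g, U.S.red (U.L.r g).det = 1

namespace OpP

variable {O F : Type} [CommRing O] [Co O] [Field F] {M : ℕ}

theorem ex_lvS (hM : Odd M) (h3 : 3 ≤ M) : ∃ l, P022D.Gt.Lv M l := by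
  obtain ⟨p, hle, hp⟩ := Nat.exists_infinite_primes (2 * M + 1)
  exact ⟨p, hM, h3, hp, fun e => absurd (Nat.le_of_dvd (by omega) e) (by omega)⟩

theorem cg_ofS {U : Su O F} [IsLocalRing O] (hU : U.Hy) (g x : GQ) :
    U.ϖ ∣ U.tr g - U.tr x ∧ U.ϖ ∣ U.dt g - U.dt x :=
  ⟨hU.uni.dvd _ ((hU.ker _).1 (by rw [map_sub, Su.tr, Su.tr, hU.tr0, hU.tr0, sub_self])),
    hU.uni.dvd _ ((hU.ker _).1 (by rw [map_sub, Su.dt, Su.dt, hU.dt1, hU.dt1, sub_self]))⟩

theorem tr_frS {U : Su O F} [IsLocalRing O] (hU : U.Hy) {l : ℕ} (hl : l.Prime) (h : l ∉ U.S.T) {φ : GQ} (hφ : IsFrob l φ) :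
    U.tr (P022D.Fm.fr l) = U.tr φ ∧ U.dt (P022D.Fm.fr l) = U.dt φ := by
  obtain ⟨g, s, hs, e⟩ := frob_cj hl hφ (fr_frob hl)
  have e2 := congrArg U.L.r e
  rw [map_mul, map_mul, map_mul, hU.unr l hl h s hs, one_mul] at e2
  have e3 : U.L.r g⁻¹ * U.L.r g = 1 := by rw [← map_mul, inv_mul_cancel, map_one]
  unfold Su.tr Su.dt
  rw [← e2]
  refine ⟨by rw [Matrix.trace_mul_cycle, e3, one_mul], ?_⟩
  rw [Matrix.det_mul, Matrix.det_mul, mul_right_comm, mul_comm (det _) (det (U.L.r g⁻¹)),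
    ← Matrix.det_mul, e3, Matrix.det_one, one_mul]

/-- the operators as elements of the completed Hecke ring -/
theorem exBS [NeZero M] {i l N : ℕ} {t d : GQ → Module.End O (Xo O M i l)} (h : Ga M i l t d)
    (G : Submodule O (P022D.Fm.AM O M)) (le : G ≤ Xo O M i l)
    (st : ∀ ℓ : PA M, ∀ v ∈ G, T2 O (RD O) i ℓ.1 (P022D.Fm.uP ℓ) v ∈ G ∧ S2 O (RD O) i ℓ.1 (P022D.Fm.uP ℓ) v ∈ G) :
    ∃ (t' : GQ → P022D.Fm.BT (P022D.Fm.HA O M N i) G) (d' : GQ →* (P022D.Fm.BT (P022D.Fm.HA O M N i) G)ˣ), H346.TF t' d' ∧ ∀ g (v : G),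
      Submodule.inclusion le (t' g • v) = t g (Submodule.inclusion le v) ∧
      Submodule.inclusion le ((d' g : P022D.Fm.BT (P022D.Fm.HA O M N i) G) • v) = d g (Submodule.inclusion le v) := by
  classical
  have mem : ∀ g (v : G), (t g (Submodule.inclusion le v) : P022D.Fm.AM O M) ∈ G ∧
      (d g (Submodule.inclusion le v) : P022D.Fm.AM O M) ∈ G := fun g v =>
    h.mem ∅ G.toAddSubgroup (fun p hp _ hM v hv => by
      have := st ⟨p, hp, hM⟩ v hv
      rwa [uP_cl] at this) g _ v.2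
  have loc : ∀ (s : Finset G) g, ∃ P ∈ P022D.Fm.HA O M N i, ∃ Q ∈ P022D.Fm.HA O M N i, ∀ v ∈ s,
      (t g (Submodule.inclusion le v) : P022D.Fm.AM O M) = P v ∧
      (d g (Submodule.inclusion le v) : P022D.Fm.AM O M) = Q v := fun s g => by
    obtain ⟨P, Q, ⟨P', a, b⟩, ⟨Q', a', b'⟩, e⟩ := P022D.Gt.law_ind h.law (2 * M).primeFactors
      (fun e => ∃ x ∈ P022D.Fm.HA O M N i, ∀ v, (e v : P022D.Fm.AM O M) = x v) ⟨1, one_mem _, fun _ => rfl⟩
      (by
        rintro _ _ ⟨x, a, b⟩ ⟨y, a', b'⟩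
        exact ⟨x + y, add_mem a a', fun v => by
          rw [LinearMap.add_apply, Submodule.coe_add, b, b', LinearMap.add_apply]⟩)
      (by
        rintro _ _ ⟨x, a, b⟩ ⟨y, a', b'⟩
        exact ⟨x - y, sub_mem a a', fun v => by
          rw [LinearMap.sub_apply, Submodule.coe_sub, b, b', LinearMap.sub_apply]⟩)
      (by
        rintro _ _ ⟨x, a, b⟩ ⟨y, a', b'⟩
        exact ⟨x * y, mul_mem a a', fun v => by
          rw [Module.End.mul_apply, b, b', Module.End.mul_apply]⟩)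
      (fun ℓ φ hl hS hφ => by
        have m := P022D.Gt.not_mem_pf (NeZero.ne M) hl hS
        exact ⟨⟨_, Algebra.subset_adjoin (Or.inl ⟨wT ⟨ℓ, hl, m⟩, rfl⟩), fun v => by
            rw [bw_T, uP_cl]; exact (h.fr hl m hφ v).1⟩,
          ⟨_, Algebra.subset_adjoin (Or.inl ⟨wS ⟨ℓ, hl, m⟩, rfl⟩), fun v => by
            rw [bw_S, uP_cl]; exact (h.fr hl m hφ v).2⟩⟩)
      (s.image (Submodule.inclusion le)) g
    exact ⟨P', a, Q', a', fun v hv => by
      rw [(e _ (Finset.mem_image_of_mem _ hv)).1, (e _ (Finset.mem_image_of_mem _ hv)).2, b, b']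
      exact ⟨rfl, rfl⟩⟩
  let t' : GQ → P022D.Fm.BT (P022D.Fm.HA O M N i) G := fun g =>
    (⟨LinearMap.codRestrict G ((Xo O M i l).subtype ∘ₗ t g ∘ₗ Submodule.inclusion le)
      fun v => (mem g v).1, fun s => by
        obtain ⟨P, a, Q, -, e⟩ := loc s g
        exact ⟨P, (cm_HA (O := O) N i).symm ▸ a, fun v hv => (e v hv).1⟩⟩ : P022D.Fm.LS (P022D.Fm.cm (P022D.Fm.HA O M N i)) G)
  let d' : GQ → P022D.Fm.BT (P022D.Fm.HA O M N i) G := fun g =>
    (⟨LinearMap.codRestrict G ((Xo O M i l).subtype ∘ₗ d g ∘ₗ Submodule.inclusion le)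
      fun v => (mem g v).2, fun s => by
        obtain ⟨P, -, Q, a, e⟩ := loc s g
        exact ⟨Q, (cm_HA (O := O) N i).symm ▸ a, fun v hv => (e v hv).2⟩⟩ : P022D.Fm.LS (P022D.Fm.cm (P022D.Fm.HA O M N i)) G)
  have kt : ∀ g v, Submodule.inclusion le (t' g • v) = t g (Submodule.inclusion le v) :=
    fun _ _ => Subtype.ext rfl
  have kd : ∀ g v, Submodule.inclusion le (d' g • v) = d g (Submodule.inclusion le v) :=
    fun _ _ => Subtype.ext rfl
  have ji := Submodule.inclusion_injective le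
  let D : GQ →* P022D.Fm.BT (P022D.Fm.HA O M N i) G :=
    { toFun := d'
      map_one' := P022D.Fm.BT.ext fun v => ji (by rw [kd, h.law.d1, one_smul]; rfl)
      map_mul' := fun a b => P022D.Fm.BT.ext fun v => ji (by
        rw [kd, h.law.dm, mul_smul, kd, kd, Module.End.mul_apply]) }
  refine ⟨t', D.toHomUnits, ⟨P022D.Fm.BT.ext fun v => ji ?_, fun a b => P022D.Fm.BT.ext fun v => ji ?_,
    fun a b => P022D.Fm.BT.ext fun v => ji ?_⟩, fun g v => ⟨kt g v, kd g v⟩⟩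
  · rw [kt, h.law.one, two_smul, map_add, Module.End.ofNat_apply, two_smul]
  · rw [kt, kt, h.law.comm]
  · change _ = Submodule.inclusion le ((t' (a * b) + d' b * t' (a * b⁻¹)) • v)
    rw [mul_smul, add_smul, mul_smul, map_add, kt, kt, kt, kd, kt, ← Module.End.mul_apply,
      h.law.mul, LinearMap.add_apply, Module.End.mul_apply]

/-- unramified at `q` on vectors of level prime to `q`, no condition on the level -/
theorem unlS (hT : P022S.Gt.GT O) (hK : HKV O) (hV : DESCV O) [NeZero M] {i l : ℕ} (lv : P022D.Gt.Lv M l)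
    {t d : GQ → Module.End O (Xo O M i l)} (h : Ga M i l t d) {M₀ q : ℕ} (sp : Sp M M₀ q)
    {s : GQ} (hs : Inert q s) (v : Xo O M i l) (hv : (v : P022D.Fm.AM O M) ∈ Iv O (RD O) (Kq M M₀)) (g : GQ) :
    t (g * s) v = t g v := by
  obtain ⟨p, hle, hp⟩ := Nat.exists_infinite_primes (2 * M + l + 1)
  have h3 := lv.three
  have pM : ¬ p ∣ M := fun e => absurd (Nat.le_of_dvd (by omega) e) (by omega)
  have po : Odd p := hp.odd_of_ne_two (by omega)
  haveI : NeZero (M * p) := ⟨mul_ne_zero (NeZero.ne M) hp.ne_zero⟩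
  have M0 : M₀ ≠ 0 := fun e => NeZero.ne M (by rw [sp.eq, e, zero_mul])
  haveI : NeZero (M₀ * p) := ⟨mul_ne_zero M0 hp.ne_zero⟩
  have lv' : P022D.Gt.Lv (M * p) l := ⟨lv.odd.mul po, h3.trans (Nat.le_mul_of_pos_right _ hp.pos),
    lv.prime, fun e => by
      rw [← mul_assoc] at e
      exact ((Nat.Prime.dvd_mul lv.prime).1 e).elim lv.nd fun e =>
        absurd ((Nat.prime_dvd_prime_iff_eq lv.prime hp).1 e) (by omega)⟩
  obtain ⟨t', d', h'⟩ := hT (M * p) i l lv'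
  have hd : M ∣ M * p := dvd_mul_right _ _
  have m := (P022S.Gt.Xo_ifl (i := i) hd hK hV lv' h3).le (Submodule.mem_map_of_mem v.2)
  have k := fun g => (h.ifl hd h' g v ⟨_, m.1⟩ rfl).1
  have q2 : ¬ q ∣ 2 * (M₀ * p) := fun e => by
    have qM : q ∣ M := ⟨M₀, by rw [sp.eq, mul_comm]⟩
    rcases (Nat.Prime.dvd_mul sp.prime).1 e with e | e
    · exact lv.odd.not_two_dvd_nat (((Nat.prime_dvd_prime_iff_eq sp.prime Nat.prime_two).1 e) ▸ qM)
    · rcases (Nat.Prime.dvd_mul sp.prime).1 e with e | e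
      · exact (Nat.Prime.coprime_iff_not_dvd sp.prime).1 sp.cop.symm e
      · exact pM (((Nat.prime_dvd_prime_iff_eq sp.prime hp).1 e) ▸ qM)
  have iv : ifl O (RD O) hd v ∈ Iv O (RD O) (Kq (M * p) (M₀ * p)) := by
    rw [mem_Iv] at hv ⊢
    intro x hx
    rw [← ifl_rt, hv _ fun a b => ?_]
    obtain ⟨y, hy⟩ := hx a b
    refine ⟨(p : ZMod M) * ZMod.castHom hd (ZMod M) y, ?_⟩
    rw [pr_coe, hy, map_add, map_mul, map_natCast, Nat.cast_mul, mul_assoc, Matrix.one_apply,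
      Matrix.one_apply, apply_ite (ZMod.castHom hd (ZMod M)), map_one, map_zero]
  have u := (h'.unl (mul_dvd_mul_right sp.dvd p) hT hK hV lv'
    ((show 3 ≤ p by omega).trans (Nat.le_mul_of_pos_left _ (Nat.pos_of_ne_zero M0))) sp.prime q2
    ⟨_, m.1⟩ iv).1 s hs
  refine Subtype.ext (ifl_inj (S := O) hd lv'.odd ?_)
  rw [← k, ← k, u.2]

/-- the operators are congruent to the values at the point -/
theorem nilBS [IsLocalRing O] {U : Su O F} (hU : U.Hy) {B Y : Type} [CommRing B] [Algebra O B]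
    [AddCommGroup Y] [Module B Y] {t : GQ → B} {d : GQ →* Bˣ} (tf : H346.TF t d) (S : Finset ℕ)
    (v : Y) (opn : ∃ V : Subgroup GQ, V.Normal ∧ IsOpen (V : Set GQ) ∧
      ∀ u ∈ V, (d u : B) • v = v ∧ ∀ g, t (g * u) • v = t g • v)
    (h0 : ∃ k : ℕ, algebraMap O B U.ϖ ^ k • v = 0)
    (fr' : ∀ (l : ℕ) φ, l.Prime → l ∉ S → IsFrob l φ →
      (∃ k : ℕ, (t φ - algebraMap O B (U.tr φ)) ^ k • v = 0) ∧
      ∃ k : ℕ, ((d φ : B) - algebraMap O B (U.dt φ)) ^ k • v = 0) (g : GQ) :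
    ∃ k : ℕ, (t g - algebraMap O B (U.tr g)) ^ k • v = 0 ∧
      ((d g : B) - algebraMap O B (U.dt g)) ^ k • v = 0 := by
  let I := (Ideal.torsionOf B Y v).radical
  have mI : ∀ x : B, x ∈ I ↔ ∃ k : ℕ, x ^ k • v = 0 := fun x => Iff.rfl
  obtain ⟨V, n, o, e⟩ := opn
  obtain ⟨l, φ, k, hl, hS, hφ, hu⟩ := P022D.G.frob V n o g S
  obtain ⟨a, b⟩ := fr' l φ hl hS hφ
  rw [← mI, ← Ideal.Quotient.eq] at a b
  let π := Ideal.Quotient.mk I
  have kt : ∀ k : ℕ, π (t (φ ^ k)) = π (algebraMap O B (U.tr (φ ^ k))) ∧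
      π (t (φ ^ (k + 1))) = π (algebraMap O B (U.tr (φ ^ (k + 1)))) := fun k => by
    induction k with
    | zero =>
      refine ⟨?_, by rw [zero_add, pow_one]; exact a⟩
      rw [pow_zero, tf.one, Su.tr, map_one, Matrix.trace_one, Fintype.card_fin, map_natCast,
        Nat.cast_ofNat]
    | succ k ih =>
      refine ⟨ih.2, ?_⟩
      have x := ih.1
      have y := ih.2
      unfold Su.tr Su.dt at *
      rw [P022D.G.SubA.step tf, tf_mat]
      simp only [map_sub, map_mul]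
      rw [x, y, show π _ = π _ from a, show π _ = π _ from b]
  have kd : π (d (φ ^ k) : B) = π (algebraMap O B (U.dt (φ ^ k))) := by
    unfold Su.dt at *
    rw [map_pow, map_pow, Units.val_pow_eq_pow_val, Matrix.det_pow, map_pow, map_pow, map_pow,
      show π _ = π _ from b]
  have hp : ∀ x y : O, U.ϖ ∣ x - y → π (algebraMap O B x) = π (algebraMap O B y) := by
    rintro x y ⟨c, hc⟩
    rw [Ideal.Quotient.eq, ← map_sub, hc, map_mul]
    exact I.mul_mem_right _ ((mI _).2 h0)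
  have eg : φ ^ k = g * (g⁻¹ * φ ^ k) := by rw [mul_inv_cancel_left]
  have e1 : π (t g) = π (t (φ ^ k)) := by
    rw [Ideal.Quotient.eq, mI]
    exact ⟨1, by rw [pow_one, sub_smul, eg, (e _ hu).2, sub_self]⟩
  have e2 : π (d g : B) = π (d (φ ^ k) : B) := by
    rw [Ideal.Quotient.eq, mI]
    exact ⟨1, by rw [pow_one, sub_smul, eg, map_mul, Units.val_mul, mul_smul, (e _ hu).1, sub_self]⟩
  obtain ⟨k1, h1⟩ := (mI _).1 (Ideal.Quotient.eq.1
    (e1.trans ((kt k).1.trans (hp _ _ (cg_ofS hU _ _).1).symm)))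
  obtain ⟨k2, h2⟩ := (mI _).1 (Ideal.Quotient.eq.1 (e2.trans (kd.trans (hp _ _ (cg_ofS hU _ _).2).symm)))
  exact ⟨k1 + k2, by rw [add_comm, pow_add, mul_smul, h1, smul_zero],
    by rw [pow_add, mul_smul, h2, smul_zero]⟩

variable [IsDomain O] [IsDiscreteValuationRing O] [Finite F] [CharP F 2] {U : Su O F}

theorem hqS (hU : U.Hy) (a : ℕ) : Finite (O ⧸ Ideal.span {(2 : O) ^ a}) :=
  fin_quo U.S.red hU.ker (two_ne' a)

theorem two_dvdS (hU : U.Hy) (a : ℕ) : ∃ k, (2 : O) ^ a ∣ U.ϖ ^ k := by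
  have hi : Irreducible U.ϖ := (IsDiscreteValuationRing.irreducible_iff_uniformizer _).2 (le_antisymm
    (fun x hx => Ideal.mem_span_singleton.2 (hU.uni.dvd x hx))
    ((Ideal.span_singleton_le_iff_mem _).2 hU.uni.nu))
  obtain ⟨n, u, e⟩ := IsDiscreteValuationRing.eq_unit_mul_pow_irreducible (two_ne' (O := O) a) hi
  exact ⟨n, by rw [e]; exact (Units.mul_left_dvd).2 dvd_rfl⟩

theorem XP_leS (l : ℕ) {S : Finset ℕ} : U.XP M S ≤ Xo O M U.i l := fun v hv => hv.1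

/-- the operators on `XP M S` -/
theorem exXS (hU : U.Hy) (hD : DIV O) (hK : HKV O) [NeZero M] {l : ℕ} (lv : P022D.Gt.Lv M l)
    {S : Finset ℕ} (le : U.XP M S ≤ Xo O M U.i l) {t d : GQ → Module.End O (Xo O M U.i l)}
    (h : Ga M U.i l t d) :
    ∃ (t' : GQ → P022D.Fm.BT (P022D.Fm.HA O M U.N U.i) (U.XP M S)) (d' : GQ →* (P022D.Fm.BT (P022D.Fm.HA O M U.N U.i) (U.XP M S))ˣ),
      H346.TF t' d' ∧ (∀ g (v : U.XP M S),
      Submodule.inclusion le (t' g • v) = t g (Submodule.inclusion le v) ∧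
      Submodule.inclusion le ((d' g : P022D.Fm.BT (P022D.Fm.HA O M U.N U.i) (U.XP M S)) • v) =
        d g (Submodule.inclusion le v)) ∧
      ∀ g (v : U.XP M S), ∃ k : ℕ, (t' g - algebraMap O _ (U.tr g)) ^ k • v = 0 ∧
        ((d' g : P022D.Fm.BT (P022D.Fm.HA O M U.N U.i) (U.XP M S)) - algebraMap O _ (U.dt g)) ^ k • v = 0 := by
  classical
  obtain ⟨t', d', tf, k⟩ := exBS (N := U.N) h (U.XP M S) le fun ℓ v hv => XP_TS hK U lv.odd S ℓ hv
  have ji := Submodule.inclusion_injective le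
  refine ⟨t', d', tf, k, fun g v => nilBS hU tf (S ∪ (U.S.T ∪ (2 * M).primeFactors)) v ?_ ?_
    (fun p φ hp hS hφ => ?_) g⟩
  · obtain ⟨V, n, o, e⟩ := h.law.opn (Submodule.inclusion le v)
    exact ⟨V, n, o, fun u hu => ⟨ji (by rw [(k u v).2, (e u hu).1]),
      fun g => ji (by rw [(k _ v).1, (k _ v).1, (e u hu).2])⟩⟩
  · obtain ⟨a, ha⟩ := P022D.Gt.ex_two hD lv.odd lv.three (V := U.XP M S) inf_le_left v
    obtain ⟨j, c, hc⟩ := two_dvdS hU a
    refine ⟨j, ?_⟩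
    rw [← map_pow, P022D.Fm.BT.alg_smul, hc, mul_comm, mul_smul, ← Nat.cast_ofNat, ← Nat.cast_pow,
      Nat.cast_smul_eq_nsmul, ha, smul_zero]
  · rw [Finset.mem_union, Finset.mem_union, not_or, not_or] at hS
    have m := P022D.Gt.not_mem_pf (NeZero.ne M) hp hS.2.2
    obtain ⟨x, y⟩ := mem_Pm.1 v.2.2 ⟨p, hp, m⟩ hS.1
    obtain ⟨a, ha⟩ := P022D.Fm.mem_Nl.1 x
    obtain ⟨b, hb⟩ := P022D.Fm.mem_Nl.1 y
    rw [bw_T, uP_cl] at ha
    rw [bw_S, uP_cl] at hb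
    obtain ⟨e1, e2⟩ := tr_frS hU hp hS.2.1 hφ
    refine ⟨⟨a, Subtype.ext ?_⟩, ⟨b, Subtype.ext ?_⟩⟩
    · rw [pow_act (fun w => (congrArg Subtype.val (k φ w).1).trans (h.fr hp m hφ _).1), ← e1]
      exact ha
    · rw [pow_act (fun w => (congrArg Subtype.val (k φ w).2).trans (h.fr hp m hφ _).2), ← e2]
      exact hb

theorem XP_eqS (hU : U.Hy) (hT : P022S.Gt.GT O) (hD : DIV O) (hK : HKV O) (hM : Odd M) (h3 : 3 ≤ M)
    (S : Finset ℕ) : U.XP M S = U.GG M := by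
  haveI : NeZero M := ⟨hM.pos.ne'⟩
  refine le_antisymm (fun v hv => ⟨hv.1, mem_Pm.2 fun ℓ _ => ?_⟩)
    fun v hv => ⟨hv.1, mem_Pm.2 fun ℓ _ => mem_Pm.1 hv.2 ℓ (Finset.notMem_empty _)⟩
  obtain ⟨l, lv⟩ := ex_lvS hM h3
  obtain ⟨t, d, h⟩ := hT M U.i l lv
  obtain ⟨t', d', -, k, nil⟩ := exXS hU hD hK lv (XP_leS l) h
  obtain ⟨j, a, b⟩ := nil (P022D.Fm.fr ℓ.1) ⟨v, hv⟩
  have hφ := fr_frob ℓ.2.1
  have a' := congrArg Subtype.val a
  have b' := congrArg Subtype.val b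
  rw [pow_act (fun w => (congrArg Subtype.val (k _ w).1).trans (h.fr ℓ.2.1 ℓ.2.2 hφ _).1)] at a'
  rw [pow_act (fun w => (congrArg Subtype.val (k _ w).2).trans (h.fr ℓ.2.1 ℓ.2.2 hφ _).2)] at b'
  rw [bw_T, bw_S, uP_cl]
  exact ⟨P022D.Fm.mem_Nl.2 ⟨j, a'⟩, P022D.Fm.mem_Nl.2 ⟨j, b'⟩⟩

theorem exOpS (hU : U.Hy) (hT : P022S.Gt.GT O) (hD : DIV O) (hK : HKV O) (hV : DESCV O) (hM : Odd M)
    (h3 : 3 ≤ M) : ∃ (t : GQ → U.B M) (d : GQ →* (U.B M)ˣ), U.Op t d := by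
  haveI : NeZero M := ⟨hM.pos.ne'⟩
  obtain ⟨l, lv⟩ := ex_lvS hM h3
  obtain ⟨t, d, h⟩ := hT M U.i l lv
  have le : U.GG M ≤ Xo O M U.i l := XP_leS l
  obtain ⟨t', d', tf, k, nil⟩ : ∃ (t' : GQ → U.B M) (d' : GQ →* (U.B M)ˣ),
      H346.TF t' d' ∧ (∀ g (v : U.GG M),
      Submodule.inclusion le (t' g • v) = t g (Submodule.inclusion le v) ∧
      Submodule.inclusion le ((d' g : U.B M) • v) = d g (Submodule.inclusion le v)) ∧
      ∀ g (v : U.GG M), ∃ k : ℕ, (t' g - algebraMap O _ (U.tr g)) ^ k • v = 0 ∧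
        ((d' g : U.B M) - algebraMap O _ (U.dt g)) ^ k • v = 0 := exXS hU hD hK lv le h
  have ji := Submodule.inclusion_injective le
  have kt : ∀ g (v : U.GG M), ((t' g • v : U.GG M) : P022D.Fm.AM O M) = t g (Submodule.inclusion le v) :=
    fun g v => congrArg Subtype.val (k g v).1
  have kd : ∀ g (v : U.GG M), (((d' g : U.B M) • v : U.GG M) : P022D.Fm.AM O M) =
      d g (Submodule.inclusion le v) := fun g v => congrArg Subtype.val (k g v).2
  have cu : ∀ {s : GQ} {u : (ZMod M)ˣ}, P022D.Fm.Cy M s (u : ZMod M).val → cyc M s = u := fun e =>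
    cy_eq e (ZMod.natCast_zmod_val _).symm
  refine ⟨t', d', tf, fun v => ?_, fun ℓ φ hφ v => ?_, fun ℓ φ hφ v => ?_, fun v => ?_, nil,
    fun v => ?_, fun p hp p2 s hs u e v => ?_, fun c hc => P022D.Fm.BT.ext fun v => ji ?_,
    fun M₀ q sp s hs u e v hv => ?_, fun M₀ q sp s hs v hv g => ji ?_⟩
  · let V : Subgroup GQ :=
      { carrier := {u | (d' u : U.B M) • v = v ∧ ∀ g, t' (g * u) • v = t' g • v}
        one_mem' := ⟨by rw [map_one, Units.val_one, one_smul], fun g => by rw [mul_one]⟩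
        mul_mem' := fun {a b} x y => ⟨by rw [map_mul, Units.val_mul, mul_smul, y.1, x.1],
          fun g => by rw [← mul_assoc, y.2, x.2]⟩
        inv_mem' := fun {a} x => ⟨by
            conv_lhs => rw [← x.1]
            rw [smul_smul, ← Units.val_mul, ← map_mul, inv_mul_cancel, map_one, Units.val_one,
              one_smul],
          fun g => by rw [← x.2, inv_mul_cancel_right]⟩ }
    obtain ⟨W, -, o, e⟩ := h.law.opn (Submodule.inclusion le v)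
    refine ⟨V, ⟨fun a x b => ⟨?_, fun g => ?_⟩⟩, Subgroup.isOpen_mono (fun u hu =>
      ⟨ji (by rw [(k u v).2, (e u hu).1]), fun g => ji (by rw [(k _ v).1, (k _ v).1, (e u hu).2])⟩) o,
      fun ℓ s hs => ?_, fun u hu => hu⟩
    · rw [map_mul, map_mul, mul_right_comm, ← map_mul, mul_inv_cancel, map_one, one_mul]
      exact x.1
    · rw [show g * (b * a * b⁻¹) = g * b * a * b⁻¹ by group, tf.comm,
        show b⁻¹ * (g * b * a) = b⁻¹ * (g * b) * a by group, x.2, tf.comm, mul_inv_cancel_right]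
    · obtain ⟨a, b⟩ := h.unr ℓ.1 ℓ.2.1 ℓ.2.2 s hs
      exact ⟨ji (by rw [(k s v).2, a]; rfl), fun g => ji (by rw [(k _ v).1, (k _ v).1, b])⟩
  · rw [kt, uP_cl]
    exact (h.fr ℓ.2.1 ℓ.2.2 hφ _).1
  · rw [kd, uP_cl]
    exact (h.fr ℓ.2.1 ℓ.2.2 hφ _).2
  · obtain ⟨s, hv, cl⟩ := h.fin (Submodule.inclusion le v)
    let A : Submodule O (P022D.Fm.AM O M) := Submodule.span O ((Xo O M U.i l).subtype '' s)
    have hA : (A : Set (P022D.Fm.AM O M)).Finite := fin_span (hqS hU) (s.finite_toSet.image _) (by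
      rintro _ ⟨w, -, rfl⟩
      obtain ⟨a, ha⟩ := P022D.Gt.ex_two hD hM h3 le_rfl w
      exact ⟨a, congrArg Subtype.val ha⟩)
    have gen : ∀ f : Module.End O (P022D.Fm.AM O M), (∀ w ∈ s, ∃ w' ∈ s, (w' : P022D.Fm.AM O M) = f w) →
        ∀ w ∈ A, f w ∈ A := fun f hf w hw => by
      refine (Submodule.span_le.2 ?_ : A ≤ A.comap f) hw
      rintro _ ⟨x, hx, rfl⟩
      obtain ⟨y, hy, e⟩ := hf x hx
      exact Submodule.subset_span ⟨y, hy, e⟩
    have st : ∀ f ∈ P022D.Fm.HA O M U.N U.i, ∀ w ∈ A, f w ∈ A := fun f hf =>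
      HA_ind (fun f => ∀ w ∈ A, f w ∈ A) (fun c w hw => A.smul_mem c hw)
        (fun a b x y w hw => A.add_mem (x w hw) (y w hw)) (fun a b x y w hw => x _ (y w hw))
        (fun ℓ => ⟨gen _ fun w hw => ⟨_, ((cl w hw).1 (P022D.Fm.fr ℓ.1)).1, by
            rw [uP_cl]; exact (h.fr ℓ.2.1 ℓ.2.2 (fr_frob ℓ.2.1) w).1⟩,
          gen _ fun w hw => ⟨_, ((cl w hw).1 (P022D.Fm.fr ℓ.1)).2, by
            rw [uP_cl]; exact (h.fr ℓ.2.1 ℓ.2.2 (fr_frob ℓ.2.1) w).2⟩⟩)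
        (fun a b _ => gen _ fun w hw => ⟨P022S.Gt.rX hK hD lv U.i (dg a b) w,
          (cl w hw).2 (dg a b) _ rfl, rfl⟩) hf
    refine Set.Finite.to_subtype ((hA.preimage Subtype.val_injective.injOn).subset fun w hw => ?_)
    obtain ⟨e, rfl⟩ := Submodule.mem_span_singleton.1 hw
    obtain ⟨f, hf, e1⟩ := e.loc {v}
    change (e.op v : P022D.Fm.AM O M) ∈ A
    rw [e1 v (Finset.mem_singleton_self v)]
    exact st f (cm_HA (O := O) (M := M) U.N U.i ▸ hf) _ (Submodule.subset_span ⟨_, hv, rfl⟩)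
  · obtain ⟨a, ha⟩ := P022D.Gt.ex_two hD hM h3 le_rfl (Submodule.inclusion le v)
    refine ⟨a + 1, fun g x u hx hu e => ?_⟩
    rw [kd, h.det a x g _ ha hx (cy_dvd (dvd_mul_right _ _) e),
      cy_eq (cy_dvd (dvd_mul_left _ _) e) hu]
    rfl
  · rw [kd, h.dI hD lv hp p2 hs, cu e]
    rfl
  · rw [(k c v).2, h.dc c hc, neg_smul, one_smul, map_neg]
    rfl
  · rw [kt, h.i1 M₀ q sp s hs _ hv, cu e]
    rfl
  · rw [(k _ v).1, (k _ v).1, unlS hT hK hV lv h sp hs _ hv]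

end OpP

/-- **row GOP** -/
theorem gopS {O F : Type} [CommRing O] [IsDomain O] [IsDiscreteValuationRing O] [Co O] [Field F]
    [Finite F] [CharP F 2] {U : Su O F} (hU : U.Hy) (hT : P022S.Gt.GT O) (hD : DIV O) (hK : HKV O)
    (hV : DESCV O) : GOP U := fun M hM h3 =>
  ⟨OpP.exOpS hU hT hD hK hV hM h3, OpP.XP_eqS hU hT hD hK hM h3⟩

/-- **row GOP** from `GAL2s` -/
theorem gopCS {O F : Type} [CommRing O] [IsDomain O] [IsDiscreteValuationRing O] [Co O]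
    [Field F] [Finite F] [CharP F 2] {U : Su O F} (hU : U.Hy) (H : P022S.Gt.GAL2s) : GOP U :=
  gopS hU (P022S.Gt.gtC O H) (P022D.V.All.div O) (P022D.V.All.hkv O) (P022D.V.All.descv O)

end Vale.Agent.P022E.Fm
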