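import Vale.Agent.P022E.Fm.NwA
import Vale.Agent.P022S.Gt.Gop

/-!
# P022S, forms side: the Galois operators and the operators at a prime of the level
-/

set_option linter.all false

open scoped MatrixGroups

noncomputable section

namespace Vale.Agent.P022E.Fm.N6

open Vale.Agent.P022 Vale.Agent.P022D.V Vale.Agent.P022E.V Vale.Agent.P027M.M
open Vale.Agent.P022D.G (Wd wT wS Inert)

variable {O F : Type} [CommRing O] [Field F] [Co O] {U : Su O F} {M : ℕ}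

section op

variable {t : GQ → U.B M} {d : GQ →* (U.B M)ˣ} (h : U.Op t d)
include h

theorem op_gvS (hM : M ≠ 0) : P022S.Gt.Gv O (fun g => (t g).op) (fun g => (d g : U.B M).op) (RD O) M
    U.i (U.GG M).subtype.toAddMonoidHom :=
  ⟨op_law h, Subtype.val_injective, (2 * M).primeFactors,
    fun p u φ hp hS hu hφ v => op_fr h hp (P022D.Gt.not_mem_pf hM hp hS) hu hφ v⟩

end op

section W

variable {M₀ q : ℕ} (sp : Sp M M₀ q) {s : GM M} (hs : IsS M M₀ s)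
include sp

include hs

variable {t : GQ → U.B M} {d : GQ →* (U.B M)ˣ} (h : U.Op t d)
include h

/-- **new vectors** -/
theorem op_newS (hN : P022S.Gt.NEWD O) {φ : GQ} (hφ : IsFrob q φ) {v : U.GG M}
    (hb : (v : P022D.Fm.AM O M) ∈ Iv O (RD O) (Bq M M₀)) (h1 : (1 + Ts O (RD O) M₀ q s) (v : P022D.Fm.AM O M) = 0)
    (h2 : (1 + Ts O (RD O) M₀ q s) (W2 O (RD O) M M₀ q (zD O M) U.i v) = 0) :
    ((q : U.B M) * t φ ^ 2 - ((q : U.B M) + 1) ^ 2 * d φ) ^ 2 • v = 0 := by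
  have a := hN M M₀ q U.i s sp (sp3 sp) hs O _ _ _ _ (op_gvS h sp.Mpos.ne') φ hφ v
    ⟨v.2.1, hb⟩ h1 h2
  have e : P022D.Nw.Dn (fun g => (t g).op) (fun g => (d g : U.B M).op) q φ =
      opH ((q : U.B M) * t φ ^ 2 - ((q : U.B M) + 1) ^ 2 * (d φ : U.B M)) := by
    rw [← Nat.cast_succ, ← Nat.cast_pow, ← nsmul_eq_mul, ← nsmul_eq_mul, map_sub, map_nsmul,
      map_nsmul, sq, map_mul]
    rfl
  rw [e] at a
  rw [sq]
  exact a

/-- **the trace of `W` on old vectors** -/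
theorem op_tlS (hG : P022S.Gt.GT O) (h3 : 3 ≤ M₀) {φ : GQ} (hφ : IsFrob q φ) {f : U.GG M}
    (hf : (f : P022D.Fm.AM O M) ∈ Iv O (RD O) (Kq M M₀)) :
    (1 + Ts O (RD O) M₀ q s) (W2 O (RD O) M M₀ q (zD O M) U.i f) =
      q • ((t φ • f : U.GG M) : P022D.Fm.AM O M) ∧
    W2 O (RD O) M M₀ q (zD O M) U.i (W2 O (RD O) M M₀ q (zD O M) U.i f) =
      q • (((d φ : U.B M) • f : U.GG M) : P022D.Fm.AM O M) := by
  haveI : NeZero M₀ := ⟨by omega⟩
  have hM := sp.Mpos.ne'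
  obtain ⟨p, -, -, h1, m⟩ := OpP.ex_lvS sp.odd (sp3 sp)
  have dn : ∀ {p : ℕ}, ¬ p ∣ 2 * M → ¬ p ∣ 2 * M₀ := fun m e =>
    m (e.trans (mul_dvd_mul_left 2 sp.dvd))
  obtain ⟨t₀, d₀, ga⟩ := hG M₀ U.i p ⟨sp.odd.of_dvd_nat sp.dvd, h3, h1, dn m⟩
  obtain ⟨y, hy, e⟩ : (f : P022D.Fm.AM O M) ∈ (XD O M₀ U.i).map (ifl O _ sp.dvd) := by
    rw [((All.descv O M₀ M sp.dvd sp.odd h3).2 U.i).2]
    exact ⟨f.2.1, hf⟩
  have hy' : y ∈ P022S.Gt.Xo O M₀ U.i p := hy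
  let A : AddSubgroup (U.GG M × P022S.Gt.Xo O M₀ U.i p) :=
    { carrier := {x | (x.1 : P022D.Fm.AM O M) = ifl O _ sp.dvd x.2}
      zero_mem' := (map_zero _).symm
      add_mem' := fun {a b} x y => by
        show ((a.1 + b.1 : U.GG M) : P022D.Fm.AM O M) = ifl O _ sp.dvd (a.2 + b.2 : P022S.Gt.Xo O M₀ U.i p)
        rw [Submodule.coe_add, Submodule.coe_add, map_add, x, y]
      neg_mem' := fun {a} x => by
        show ((-a.1 : U.GG M) : P022D.Fm.AM O M) = ifl O _ sp.dvd (-a.2 : P022S.Gt.Xo O M₀ U.i p)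
        rw [Submodule.coe_neg, Submodule.coe_neg, map_neg, x] }
  have r := P022D.Nw.law_rel (op_law h) ga.law A (2 * M).primeFactors (fun l χ hl hS hχ v w a => by
    have ml := P022D.Gt.not_mem_pf hM hl hS
    have a' : (v : P022D.Fm.AM O M) = ifl O _ sp.dvd w := a
    constructor
    · exact (op_fr h hl ml (P022D.Gt.nd2 hl ml).2 hχ v).1.trans (by
        rw [a', ← (P022D.Gt.ifl_cl sp.dvd hl ml _).1, ← (ga.fr hl (dn ml) hχ w).1])
    · exact (op_fr h hl ml (P022D.Gt.nd2 hl ml).2 hχ v).2.trans (by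
        rw [a', ← (P022D.Gt.ifl_cl sp.dvd hl ml _).2, ← (ga.fr hl (dn ml) hχ w).2])) φ
    (v := f) (w := ⟨y, hy'⟩) e.symm
  have q2 : q ≠ 2 := fun x => by
    have := sp.qodd
    rw [x] at this
    exact absurd this (by decide)
  have hu := P022D.Gt.cl_coe sp.cop.symm
  have r1 : ((t φ • f : U.GG M) : P022D.Fm.AM O M) = ifl O _ sp.dvd (t₀ φ ⟨y, hy'⟩) := r.1
  have r2 : (((d φ : U.B M) • f : U.GG M) : P022D.Fm.AM O M) = ifl O _ sp.dvd (d₀ φ ⟨y, hy'⟩) := r.2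
  obtain ⟨c, hc⟩ := (grp M M₀ q sp).2.1
  constructor
  · rw [r1, ga.frT q _ φ sp.prime q2 hu hφ, ← e]
    exact P022D.Nw.Tr_W2 sp (pzD sp) hs hu U.i (e ▸ XD_tc sp U.i f.2.1)
  · rw [P022D.Nw.W2_W2 sp (pzD sp) hs hc U.i (P022D.Nw.K_B hf) (XD_tc sp U.i f.2.1), r2,
      ga.frS q _ φ sp.prime q2 hu hφ, ← e]
    refine congrArg _ (gen_S2 _ (fun w => ?_) (ifl_neg sp.dvd) U.i q y).symm
    rw [P022D.Nw.ifl_dg, Units.ext ((P022D.Nw.um_c sp hc).trans hu.symm)]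

end W

end Vale.Agent.P022E.Fm.N6
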