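import Vale.Agent.P022D.Fm.RaiseG
import Vale.Agent.P022S.Gt.Defs

/-!
# P022S, forms side: the Galois input of level raising
-/

set_option linter.all false

noncomputable section

namespace Vale.Agent.P022S.Gt

open Vale.Agent.P022 Vale.Agent.P022D Vale.Agent.P022D.V
open Vale.Agent.P022D.Gt (Lv cl cl_coe)
open Vale.Agent.P022D.Fm hiding Sy eig_law eig_down tz_of ram_of

variable {O : Type} [CommRing O] [Co O]

/-- the system `lam` belongs to `r` modulo `π` -/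
structure Sy (π : O) (r : GQ →* Matrix (Fin 2) (Fin 2) O) (lam : ℕ → O) (ℓ₀ : ℕ) : Prop where
  opn : IsOpen {g : GQ | (r g).map (Ideal.Quotient.mk (Ideal.span {π})) = 1}
  det : ∀ g, π ∣ (r g).det - 1
  fr : ∃ S : Finset ℕ, ∀ (p : ℕ) φ, p.Prime → p ∉ S → IsFrob p φ → π ∣ lam p - (r φ).trace

/-- on an eigenvector the Galois operators act through `r` -/
theorem eig_law (hR : ROOT O) (hP : PAR O) (hD : DIV O) (hG : GT O) {π : O} (hπ : Unif π)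
    {r : GQ →* Matrix (Fin 2) (Fin 2) O} {lam : ℕ → O} {ℓ₀ : ℕ} (hS : Sy π r lam ℓ₀) {M : ℕ}
    [NeZero M] (hL : Lv M ℓ₀) {f : FT M (RR π)} (hf : f ∈ Vb M π)
    (sc : ∀ a, rt O _ (dg a a) f = f) (A : Finset ℕ) (hA : ℓ₀ ∉ A)
    (ev : ∀ (p : ℕ) (u : (ZMod M)ˣ), p.Prime → p ≠ 2 → p ∉ A → (u : ZMod M) = p →
      Tf O _ 0 p u f = lam p • f) :
    ∃ (t d : GQ → Module.End O (Xo O M 0 ℓ₀)) (x : Xo O M 0 ℓ₀), Ga M 0 ℓ₀ t d ∧
      (x : FT M (RD O)) = ml O M (dv π) f ∧ π • x = 0 ∧ (∀ p u, T2 O _ 0 p u x =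
        ml O M (dv π) (Tf O _ 0 p u f)) ∧ ∀ g, t g x = (r g).trace • x := by
  classical
  obtain ⟨t, d, ga⟩ := hG M 0 ℓ₀ hL
  have h2 : π ∣ 2 := hπ.dvd 2 (hR M hL.odd).2.2.2.2.2.2.2.2.1
  have m1 : f ∈ VV M 1 π := by rw [(hP M hL.odd hL.three).2 1 π h2]; exact hf.1
  obtain ⟨x1, x2⟩ := (((hD M hL.odd hL.three).2.1 1 π hπ.ne).2 _).2 ⟨f, ⟨m1, hf.2⟩, rfl⟩
  have pwx : ∀ p, pw O _ M 0 p (ml O M (dv π) f) = ml O M (dv π) f := fun p => by
    have e := (((hD M hL.odd hL.three).2.2.2.1 0 _ (Submodule.mem_sup_left x1)).2.2).1 x1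
    rw [pw_apply, e, sub_self, smul_zero, add_zero]
  have eT : ∀ p u, T2 O _ 0 p u (ml O M (dv π) f) = ml O M (dv π) (Tf O _ 0 p u f) :=
    fun p u => by rw [T2_apply, pwx, ml_Tf, Tf_apply]
  let x : Xo O M 0 ℓ₀ := ⟨ml O M (dv π) f, Submodule.mem_sup_left x1⟩
  have x0 : π • x = 0 := Subtype.ext x2
  refine ⟨t, d, x, ga, rfl, x0, eT, fun g => ?_⟩
  let φ : (O ⧸ Ideal.span {π}) →ₗ[O] Xo O M 0 ℓ₀ :=
    Submodule.liftQ (Ideal.span {π}) (LinearMap.toSpanSingleton O _ x) (by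
      rw [Ideal.span, Submodule.span_le, Set.singleton_subset_iff]
      exact x0)
  have hφ : ∀ c : O, φ (Ideal.Quotient.mk _ c) = c • x := fun c => rfl
  obtain ⟨S, hS'⟩ := hS.fr
  have key := ((Rz.law_r π r hS.opn).nat ga.law φ.toAddMonoidHom
    (S ∪ A ∪ (2 * M).primeFactors) (fun p ψ hp hn hψ v => by
      obtain ⟨c, rfl⟩ := Ideal.Quotient.mk_surjective v
      simp only [Finset.mem_union, not_or, Nat.mem_primeFactors] at hn
      have nd : ¬ p ∣ 2 * M := fun e => hn.2 ⟨hp, e, mul_ne_zero two_ne_zero (NeZero.ne M)⟩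
      have p2 : p ≠ 2 := fun e => nd (e ▸ dvd_mul_right 2 M)
      have pc : Nat.Coprime p M := (Nat.Prime.coprime_iff_not_dvd hp).2 fun e => nd (e.mul_left 2)
      have a : t ψ x = (r ψ).trace • x := Subtype.ext (by
        rw [ga.frT p _ ψ hp p2 (cl_coe pc) hψ, eT, ev p _ hp p2 hn.1.2 (cl_coe pc), map_smul]
        exact smul_of_dvd x2 (hS' p ψ hp hn.1.1 hψ))
      have b : d ψ x = (r ψ).det • x := Subtype.ext (by
        rw [ga.frS p _ ψ hp p2 (cl_coe pc) hψ, S2_apply, pwx, Sf_apply, pow_zero, one_smul,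
          ← ml_rt, sc]
        exact ((smul_of_dvd x2 (hS.det ψ)).trans (one_smul _ _)).symm)
      simp only [LinearMap.toAddMonoidHom_coe, LinearMap.smul_apply, Module.End.one_apply,
        map_smul, hφ, a, b]
      exact ⟨smul_comm _ _ _, smul_comm _ _ _⟩) g (Ideal.Quotient.mk _ 1)).1
  simp only [LinearMap.toAddMonoidHom_coe, LinearMap.smul_apply, Module.End.one_apply,
    map_smul, hφ, one_smul] at key
  exact key.symm

section use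

variable (hR : ROOT O) (hP : PAR O) (hD : DIV O) (hG : GT O) {π : O} (hπ : Unif π)
  {r : GQ →* Matrix (Fin 2) (Fin 2) O} {lam : ℕ → O} {ℓ₀ : ℕ} (hS : Sy π r lam ℓ₀)
  {M M₀ : ℕ} (h : M₀ ∣ M) (hL : Lv M ℓ₀) {H : Set (GM M)} {χ : GM M → O}
include hR hP hD hG hπ hS hL

theorem eig_down (h3 : 3 ≤ M₀) [NeZero M₀] {f : FT M₀ (RR π)} (hf : f ∈ Vb M₀ π)
    (hx : ifl O _ h f ∈ Gd π M H χ lam) :
    ∃ (t d : GQ → Module.End O (Xo O M₀ 0 ℓ₀)) (x : Xo O M₀ 0 ℓ₀), Ga M₀ 0 ℓ₀ t d ∧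
      (x : FT M₀ (RD O)) = ml O M₀ (dv π) f ∧ π • x = 0 ∧ (∀ p u, T2 O _ 0 p u x =
        ml O M₀ (dv π) (Tf O _ 0 p u f)) ∧ ∀ g, t g x = (r g).trace • x := by
  obtain ⟨-, -, c, e⟩ := mem_Gd.1 hx
  haveI : NeZero M := ⟨hL.odd.pos.ne'⟩
  refine eig_law hR hP hD hG hπ hS ⟨hL.odd.of_dvd_nat h, h3, hL.prime,
    fun e => hL.nd (e.trans (Nat.mul_dvd_mul_left 2 h))⟩ hf (fun a => ?_) M.primeFactors
    (fun e => hL.nd ((Nat.dvd_of_mem_primeFactors e).mul_left 2)) fun p u hp p2 hn hu => ?_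
  · obtain ⟨b, rfl⟩ := ZMod.unitsMap_surjective h a
    refine ifl_inj (S := O) h hL.odd ?_
    have := ifl_rt h (dg b b) f (S := O)
    rw [pr_dg, c] at this
    exact this
  · have pc : Nat.Coprime p M := (Nat.Prime.coprime_iff_not_dvd hp).2 fun e =>
      hn (Nat.mem_primeFactors.2 ⟨hp, e, NeZero.ne M⟩)
    refine ifl_inj (S := O) h hL.odd ?_
    rw [ifl_Tf h 0 (cl_coe pc) hu, e p _ hp p2 (cl_coe pc), map_smul]

/-- `T_l` kills the eigenvectors of level prime to `l` if the residual trace vanishes -/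
theorem tz_of (h3 : 3 ≤ M₀) {l : ℕ} (hl : l.Prime) (l2 : l ≠ 2) {φ : GQ} (hφ : IsFrob l φ)
    (h0 : π ∣ (r φ).trace) {f : FT M₀ (RR π)} (hf : f ∈ Vb M₀ π)
    (hx : ifl O _ h f ∈ Gd π M H χ lam) (u : (ZMod M₀)ˣ) (hu : (u : ZMod M₀) = l) :
    Tf O _ 0 l u f = 0 := by
  haveI : NeZero M₀ := ⟨by omega⟩
  obtain ⟨t, d, x, ga, -, x0, eT, e⟩ := eig_down hR hP hD hG hπ hS h hL h3 hf hx
  refine (hD M₀ (hL.odd.of_dvd_nat h) h3).1 π hπ.ne ?_
  have a : (r φ).trace • x = 0 :=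
    (smul_of_dvd (a := (r φ).trace) (b := (0 : O)) x0 (by rwa [sub_zero])).trans (zero_smul O x)
  rw [← eT, ← ga.frT l u φ hl l2 hu hφ, e, a, map_zero]
  rfl

/-- no eigenvectors of level prime to `l` if `r` is residually ramified at `l` -/
theorem ram_of (h3 : 3 ≤ M₀) {l : ℕ} (hl : l.Prime) (nd : ¬ l ∣ 2 * M₀) {σ g : GQ}
    (hσ : G.Inert l σ) (hu : IsUnit ((r (g * σ)).trace - (r g).trace)) {f : FT M₀ (RR π)}
    (hf : f ∈ Vb M₀ π) (hx : ifl O _ h f ∈ Gd π M H χ lam) : f = 0 := by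
  haveI : NeZero M₀ := ⟨by omega⟩
  obtain ⟨t, d, x, ga, e1, -, -, e⟩ := eig_down hR hP hD hG hπ hS h hL h3 hf hx
  have a := e (g * σ)
  rw [(ga.unr l hl nd σ hσ).2 g, e g] at a
  replace a : x = 0 := hu.smul_eq_zero.1 ((sub_smul _ _ _).trans (sub_eq_zero.2 a.symm))
  refine (hD M₀ (hL.odd.of_dvd_nat h) h3).1 π hπ.ne ?_
  rw [← e1, a, map_zero]
  rfl

end use

end Vale.Agent.P022S.Gt
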