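import Vale.Agent.P022D.Th.Vec

/-!
# P022S: the first vector comes from the discriminant form
-/

set_option linter.all false

open Matrix UpperHalfPlane
open scoped MatrixGroups ModularForm

noncomputable section

namespace Vale.Agent.P022S.Gt

open Vale.Agent.P022 Vale.Agent.P027M.M Vale.Agent.P022D Vale.Agent.P022D.V Vale.Agent.P022D.Th
open Vale.Agent.P022D.Th.Vec0P

/-- the discriminant as a form on `Γ₁(N)` -/
def disc (N : ℕ) : MF N (11 + 1) where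
  toFun := (CuspForm.discriminant : CuspForm 𝒮ℒ 12)
  slash_action_eq' γ hγ := (CuspForm.discriminant : CuspForm 𝒮ℒ 12).slash_action_eq' γ (by
    obtain ⟨g, -, rfl⟩ := hγ
    exact ⟨g, rfl⟩)
  holo' := (CuspForm.discriminant : CuspForm 𝒮ℒ 12).holo'
  bdd_at_cusps' hc := ModularFormClass.bdd_at_cusps (CuspForm.discriminant : CuspForm 𝒮ℒ 12)
    (hc.mono (by
      rintro _ ⟨g, -, rfl⟩
      exact ⟨g, rfl⟩))

theorem tau_two (n : ℕ) : ((PowerSeries.coeff n H790.A.DZ : ℤ) : ZMod 2) =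
    PowerSeries.coeff n H790.A.D := by
  rw [← H790.A.red_DZ, H790.A.red, PowerSeries.coeff_map]
  rfl

theorem tau_hk {l : ℕ} (hl : l.Prime) (ho : Odd l) (n : ℕ) :
    (2 : ℤ) ∣ PowerSeries.coeff (l * n) H790.A.DZ +
      (if l ∣ n then PowerSeries.coeff (n / l) H790.A.DZ else 0) := by
  classical
  refine (ZMod.intCast_zmod_eq_zero_iff_dvd _ 2).1 ?_
  rw [Int.cast_add, apply_ite (Int.cast : ℤ → ZMod 2), tau_two, tau_two, Int.cast_zero, H790.A.D,
    PowerSeries.coeff_mk, PowerSeries.coeff_mk]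
  have key : (∃ a : ℕ, Odd a ∧ l * n = a ^ 2) ↔ l ∣ n ∧ ∃ a : ℕ, Odd a ∧ n / l = a ^ 2 := by
    constructor
    · rintro ⟨a, ha, e⟩
      obtain ⟨b, rfl⟩ : l ∣ a := hl.dvd_of_dvd_pow (n := 2) ⟨n, e.symm⟩
      have e' : n = l * b ^ 2 := Nat.eq_of_mul_eq_mul_left hl.pos (by rw [e]; ring)
      exact ⟨⟨_, e'⟩, b, (Nat.odd_mul.1 ha).2, by rw [e', Nat.mul_div_cancel_left _ hl.pos]⟩
    · rintro ⟨⟨m, rfl⟩, a, ha, e⟩
      rw [Nat.mul_div_cancel_left _ hl.pos] at e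
      exact ⟨l * a, ho.mul ha, by rw [e]; ring⟩
  by_cases h : ∃ a : ℕ, Odd a ∧ l * n = a ^ 2
  · rw [if_pos h, if_pos (key.1 h).1, if_pos (key.1 h).2]
    rfl
  · rw [if_neg h, zero_add]
    by_cases d : l ∣ n
    · rw [if_pos d, if_neg fun e => h (key.2 ⟨d, e⟩)]
    · rw [if_neg d]

theorem tau_one : Odd (PowerSeries.coeff 1 H790.A.DZ) := by
  classical
  have h := tau_two 1
  rw [H790.A.D, PowerSeries.coeff_mk, if_pos ⟨1, odd_one, rfl⟩] at h
  refine Int.not_even_iff_odd.1 fun e => ?_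
  rw [(ZMod.intCast_zmod_eq_zero_iff_dvd _ 2).2 (by exact_mod_cast e.two_dvd)] at h
  exact zero_ne_one h

/-- the discriminant is an eigenform modulo `π` with eigenvalues zero -/
theorem eigD {O : Type} [CommRing O] [Co O] (π : O) (N₀ N₁ : ℕ) [NeZero N₀] (lam : ℕ → O)
    (two : π ∣ 2) (oc : ∀ p, π ∣ lam p) :
    ∃ (i : ℕ) (f : MF N₀ (i + 1)) (c : ℕ → ℕ → O),
    H353.Rep N₀ i f (fun n δ => Co.j (c n δ)) ∧
    (∃ n, 0 < n ∧ Nat.Coprime n N₁ ∧ IsUnit (c n 1)) ∧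
    (∀ n δ, Nat.Coprime δ (2 * N₀) → π ∣ c n δ - c n 1) ∧
    ∀ (ℓ : PA N₀) n, π ∣ c (ℓ.1 * n) 1 + (if ℓ.1 ∣ n then c (n / ℓ.1) 1 else 0) -
      lam ℓ.1 * c n 1 := by
  refine ⟨11, disc N₀, fun n δ => (δ : O) ^ 11 * ((PowerSeries.coeff n H790.A.DZ : ℤ) : O),
    fun δ h τ => ?_, ⟨1, one_pos, Nat.coprime_one_left _, ?_⟩, fun n δ h => ?_, fun ℓ n => ?_⟩
  · have e : ((disc N₀ : MF N₀ (11 + 1)) : ℍ → ℂ) ∣[((11 + 1 : ℕ) : ℤ)]
        gd N₀ δ (H353.cop_N h) = (CuspForm.discriminant : CuspForm 𝒮ℒ 12) :=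
      (CuspForm.discriminant : CuspForm 𝒮ℒ 12).slash_action_eq' _ ⟨_, rfl⟩
    have a := (ModularForm.hasSum_qExpansion (CuspForm.discriminant : CuspForm 𝒮ℒ 12) one_pos
      one_mem_strictPeriods_SL τ).mul_left ((δ : ℂ) ^ 11)
    rw [H790.A.qExp_disc] at a
    beta_reduce
    rw [e]
    refine Eq.mp (congrArg (fun x => HasSum x _) (funext fun n => ?_)) a
    rw [map_mul, map_pow, map_natCast, map_intCast, H790.A.toC, PowerSeries.coeff_map,
      Function.Periodic.qParam, ← Complex.exp_nat_mul, ← mul_assoc, eq_intCast]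
    refine congrArg _ (congrArg _ ?_)
    push_cast
    ring
  · beta_reduce
    rw [Nat.cast_one, one_pow, one_mul]
    have u := Tr.odd_unit' (O := O) (Int.natAbs_odd.2 tau_one)
    rcases Int.natAbs_eq (PowerSeries.coeff 1 H790.A.DZ) with e | e
    · rw [e, Int.cast_natCast]; exact u
    · rw [e, Int.cast_neg, Int.cast_natCast]; exact u.neg
  · obtain ⟨k, rfl⟩ := Nat.coprime_two_right.1 (h.coprime_dvd_right (dvd_mul_right 2 N₀))
    beta_reduce
    rw [Nat.cast_one, ← sub_mul]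
    refine ((two.trans ⟨k, ?_⟩).trans (sub_dvd_pow_sub_pow _ _ 11)).mul_right _
    push_cast
    ring
  · have l2 : ℓ.1 ≠ 2 := fun e => ℓ.2.2 ((dvd_of_eq e).mul_right _)
    obtain ⟨k, hk⟩ := tau_hk ℓ.2.1 (ℓ.2.1.odd_of_ne_two l2) n
    refine dvd_sub (two.trans ⟨(k : O), ?_⟩) ((oc _).mul_right _)
    have := congrArg (Int.cast : ℤ → O) hk
    rw [Int.cast_add, apply_ite (Int.cast : ℤ → O), Int.cast_zero, Int.cast_mul,
      Int.cast_ofNat] at this
    simpa only [Nat.cast_one, one_pow, one_mul] using this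

theorem vec0S (O : Type) [CommRing O] [Co O] (hX : XBS) (hB : BD O) (hQ : BASQ) (hT : TUP)
    (h1 : VS1 O) (h3 : VS3 O) (hP : PAR O) (hH : HKV O) (hI : IRR O) (hR : ROOT O)
    (π : O) (M N₁ N₂ N₀ : ℕ) [NeZero N₀] (lam : ℕ → O) (hπ : Unif π) (lv : Lv M N₁ N₂ N₀)
    (oc : ∀ p, π ∣ lam p) : V0 π M N₁ N₂ N₀ lam := by
  have hM := lv.odd
  have d1 : N₁ ∣ M := ⟨N₂, lv.eq⟩
  have d2 : N₂ ∣ M := ⟨N₁, by rw [lv.eq, mul_comm]⟩
  have p1 : 0 < N₁ := Nat.pos_of_dvd_of_pos d1 hM.pos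
  have p2 : 0 < N₂ := Nat.pos_of_dvd_of_pos d2 hM.pos
  have hq : M / N₁ = N₂ := by rw [lv.eq, Nat.mul_div_cancel_left _ p1]
  have two : π ∣ 2 := hπ.dvd 2 (hR M hM).2.2.2.2.2.2.2.2.1
  obtain ⟨i, f, c, hf, ⟨n₀, hn0, hn1, hn2⟩, hc, hl⟩ :=
    eigD π N₀ N₁ lam two oc
  obtain ⟨s, ⟨hs, hsI⟩, hD⟩ := hT M N₁ N₀ i hM.pos d1 lv.dvd f _ hf
  have hs1 : ∀ b, s (dg 1 b) = Vo N₂ (PowerSeries.mk fun n => Co.j (c n 1)) := fun b => by
    have h := hD 1 b 1 (Nat.coprime_one_left _) ⟨0, by simp⟩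
    rwa [Nat.cast_one, one_pow, one_smul, hq] at h
  obtain ⟨-, b2, b3, -, -⟩ := hB M (i + 1) hM
  obtain ⟨w, hw, hws⟩ := b3 s hs (b2 s hs fun a m => by
    rw [hs1, Vo, PowerSeries.coeff_mk]
    split_ifs
    · rw [PowerSeries.coeff_mk]
      exact Co.mem _
    · exact zero_mem _) fun σ a hσ ha => by
      refine sub_eq_zero.1 ((hX M hM.pos).unq (i + 1) _
        (Submodule.sub_mem _ ((hQ M (i + 1) hM lv.three).1 σ a ha s hs) hs) fun b => ?_)
      rw [Pi.sub_apply, sub_eq_zero, cj, dg_mul, mul_one, hs1, hs1]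
      ext n
      rw [PowerSeries.coeff_map, Vo, PowerSeries.coeff_mk]
      split_ifs
      · rw [PowerSeries.coeff_mk]
        exact hσ _
      · exact map_zero _
  have hco : ∀ g n, av O ((w g).coeff n) = (s g).coeff n := fun g n => by
    rw [← hws, toC, PowerSeries.coeff_map]
  let v : FT M (RR π) := red M π w
  have hv : ∀ g n, (v g).coeff n = Ideal.Quotient.mk _ ((w g).coeff n) := fun g n =>
    PowerSeries.coeff_map (Ideal.Quotient.mk (Ideal.span {algebraMap O (AA O) π})) n (w g)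
  have par := (hP M hM lv.three).2
  have hvV : v ∈ VV M 0 π := by
    rw [← par (i + 1) π two]
    exact ((h1 M 2 π hM le_rfl (two.trans (dvd_pow_self 2 (by norm_num)))).2 _ _).2
      ⟨i + 1, Nat.ModEq.refl _, w, hw, rfl⟩
  have hz : ∀ x ∈ VV M 0 π, ∀ y ∈ VV M 0 π, (∀ b, x (dg 1 b) = y (dg 1 b)) → x = y := by
    intro x hx y hy h
    refine sub_eq_zero.1 (funext fun g => ?_)
    exact hI M 0 π hM hπ.ne _ (Submodule.sub_mem _ hx hy)
      (dg 1 (Matrix.GeneralLinearGroup.det g)) (sub_eq_zero.2 (h _)) g (det_dg _).symm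
  have hd : ∀ a b, v (dg a b) =
      Vo N₂ (PowerSeries.mk fun n => algebraMap O (RR π) (c n 1)) := fun a b => by
    obtain ⟨δ, hδ, hδa⟩ := odd_rep hM a
    have hδ' : Nat.Coprime δ (2 * N₀) := hδ.coprime_dvd_right (Nat.mul_dvd_mul_left 2 lv.dvd)
    have h := hD a b δ hδ' ⟨0, by rw [hδa, mul_zero, add_zero]⟩
    ext n
    have h4 := congrArg (PowerSeries.coeff n) h
    rw [hq, PowerSeries.coeff_smul, smul_eq_mul, ← hco, Vo, PowerSeries.coeff_mk,
      PowerSeries.coeff_mk] at h4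
    have h5 : (δ : AA O) ^ i * (w (dg a b)).coeff n =
        if N₂ ∣ n then algebraMap O (AA O) (c (n / N₂) δ) else 0 := by
      apply av_inj
      rw [map_mul, map_pow, map_natCast, h4]
      split_ifs
      · rfl
      · exact (map_zero _).symm
    have h6 := congrArg (Ideal.Quotient.mk (Ideal.span {algebraMap O (AA O) π})) h5
    have h7 : (δ : RR π) = 1 := by
      obtain ⟨k, rfl⟩ := Nat.coprime_two_right.1 (hδ.coprime_dvd_right (dvd_mul_right 2 M))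
      have h8 := kap_zero two
      rw [map_ofNat] at h8
      rw [Nat.cast_add, Nat.cast_mul, Nat.cast_ofNat, h8, zero_mul, zero_add, Nat.cast_one]
    rw [map_mul, map_pow, map_natCast, h7, one_pow, one_mul] at h6
    rw [hv, h6, Vo, PowerSeries.coeff_mk, PowerSeries.coeff_mk]
    split_ifs
    · have h9 := kap_zero (hc (n / N₂) δ hδ')
      rw [map_sub] at h9
      exact sub_eq_zero.1 h9
    · exact map_zero _
  refine ⟨v, ⟨hvV, fun h hh => ?_⟩, fun p u hp hp2 hu => ?_, n₀, hn0, hn1, ?_⟩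
  · obtain ⟨a, k, hk, rfl⟩ := split hM lv.dvd hh
    have hk1 : rt O _ k v = v := by
      funext g
      ext n
      have h4 := congrArg (PowerSeries.coeff n) (congrFun (hsI k hk) g)
      rw [one_smul, rt_apply, ← hco, ← hco] at h4
      rw [rt_apply, hv, hv, av_inj h4]
    rw [one_smul, map_mul, AlgHom.mul_apply, hk1]
    refine hz _ ((h3 M π hM hπ.ne).2.2.2.1 0 _ v hvV) v hvV fun b => ?_
    rw [rt_apply, dg_mul, hd, hd]
  · have hcp : Nat.Coprime p M := (ZMod.isUnit_iff_coprime p M).1 (hu ▸ u.isUnit)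
    have hpa : ¬ p ∣ 2 * N₀ := (Nat.Prime.coprime_iff_not_dvd hp).1 (Nat.Coprime.mul_right
      ((Nat.coprime_primes hp Nat.prime_two).2 hp2) (hcp.coprime_dvd_right lv.dvd))
    have hT' : Tf O _ 0 p u v ∈ VV M 0 π := by
      rw [← par (0 + 1) π two] at hvV ⊢
      exact ((hH M 0 p u hM hp hp2 hu).1 π hπ.ne).1 v hvV
    refine hz _ hT' _ (Submodule.smul_mem _ _ hvV) fun b => ?_
    ext n
    have h4 : Tf O _ 0 p u v (dg 1 b) =
        Uo p (v (dg 1 u * dg 1 b)) + Vo p (v (dg u 1 * dg 1 b)) := by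
      rw [Tf, pow_zero, one_smul]
      rfl
    rw [h4, dg_mul, dg_mul, hd, hd, Pi.smul_apply, hd, map_add, PowerSeries.coeff_smul,
      Algebra.smul_def]
    refine uv hp.pos p2 (hcp.coprime_dvd_right d2).symm _ _ (fun m => ?_) n
    have h5 := kap_zero (hl ⟨p, hp, hpa⟩ m)
    rw [map_sub, map_add, map_mul, apply_ite (algebraMap O (RR π)), map_zero] at h5
    exact sub_eq_zero.1 h5
  · rw [← dg_one, hd, Vo, PowerSeries.coeff_mk, if_pos (Dvd.intro _ rfl),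
      Nat.mul_div_cancel_left _ p2, PowerSeries.coeff_mk]
    exact kap_ne hπ hn2

/-- **the first vector** for the system with all `T_p = 0` -/
theorem vecS (O : Type) [CommRing O] [Co O] (π z : O) (M N₁ N₂ N₀ : ℕ) [NeZero N₀] (lam : ℕ → O)
    (hπ : Unif π) (lv : Lv M N₁ N₂ N₀) (hz : Co.j z = ze N₁ 1) (oc : ∀ p, π ∣ lam p) :
    V1 π z M N₁ N₀ lam :=
  vec1 O (vs1 O) (vs3 O) (hk O) (All.ser O) (root O) π z M N₁ N₂ N₀ lam hπ lv hz
    (vec0S O xb (bd0 O) basq0 tup (vs1 O) (vs3 O) (par O) (All.hkv O) (All.irr O) (root O)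
      π M N₁ N₂ N₀ lam hπ lv oc)

end Vale.Agent.P022S.Gt
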