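import Vale.Agent.P022S.Gt.SbA
import Vale.Agent.P022S.Gt.NwA
import Vale.Agent.P022S.Gt.Raise
import Vale.Agent.P022S.Gt.Seed
import Vale.Agent.P022S.G.Gal
import Vale.Agent.P022S.Fp.Gen1

/-!
# P022S, block Gt: closed statements
-/

set_option linter.all false

open Matrix IsLocalRing

noncomputable section

namespace Vale.Agent.P022S.Gt

open Vale.Agent.P022 Vale.Agent.P022D.V Vale.Agent.P022E Vale.Agent.P022E.V
open Vale.Agent.P022D.Gt (cl)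
open Vale.Agent.P027M.M (ze)

/-- **GT** -/
theorem gt0 (O : Type) [CommRing O] [Co O] : GT O := gtC O Bex.gal2s

/-- **NEWD** -/
theorem newd1 (O : Type) [CommRing O] [Co O] : NEWD O := newd O Bex.gal2s Bex.i2ns

theorem hy {O F : Type} [CommRing O] [Field F] [IsLocalRing O] [Co O] {U : Fm.Su O F}
    (hU : U.OkS) : U.Hy := ⟨hU.ok.ker, hU.uni, hU.unr, hU.ok.tr0, hU.ok.dt1⟩

/-- **row GOP** -/
theorem gop {O F : Type} [CommRing O] [IsDomain O] [IsDiscreteValuationRing O] [Co O]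
    [Field F] [Finite F] [CharP F 2] {U : Fm.Su O F} (hU : U.OkS) : Fm.GOP U :=
  Fm.gopCS (hy hU) Bex.gal2s

/-- **the bound for the socle** -/
theorem genDS {O F : Type} [CommRing O] [Co O] [IsLocalRing O] [Field F] [CharP F 2]
    {S : P022D.R.Dat O F} {L : Loc.Pl O} (r : ℕ) :
    ∃ b : ℕ, ∀ (M N₀ N i c : ℕ) (l : List ℕ) (z π : O) (A : Finset ℕ), L.OkS S → Unif π →
    Odd M → M = N₀ * l.prod → N ∣ N₀ → 0 < N → 3 ≤ N * l.prod →
    (∀ q ∈ l, 3 ≤ N * l.prod / q) → l.Nodup → (∀ q ∈ l, q.Prime ∧ ¬ q ∣ N₀) →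
    l.length = r → Co.j z = ze N 1 → Nat.Coprime c N → ∀ X : Submodule O (FT M (RD O)),
    X ≤ XD O M i ⊓ Iv O _ (Kq M (N * l.prod)) ⊓ Wh O _ M (z ^ c) → (∀ v ∈ X, π • v = 0) →
    (∀ a d : (ZMod M)ˣ, Cg M N₀ a 1 → Cg M N₀ d 1 → ∀ v ∈ X, rt O _ (dg a d) v = v) →
    (∀ (p : ℕ) φ, p.Prime → p ∉ A → ¬ p ∣ 2 * M → IsFrob p φ → ∀ v ∈ X,
      T2 O _ i p (cl M p) v = (L.r φ).trace • v ∧ S2 O _ i p (cl M p) v = v) →
    ∃ s : Finset (FT M (RD O)), s.card ≤ b ∧ Submodule.span O (s : Set _) = X :=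
  Fm.Sb.genDS0 (P022D.V.All.div O) (P022D.V.All.descv O) (gt0 O) r (Gen1.gen1' r)

end Vale.Agent.P022S.Gt
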