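import Vale.Agent.P022S.Gt.All
import Vale.Agent.P022E.Fm.Sb

/-!
# P022S, block Gt: the bound for the socle at every Whittaker level
-/

set_option linter.all false

open Matrix IsLocalRing

noncomputable section

namespace Vale.Agent.P022S.Gt

open Vale.Agent.P022 Vale.Agent.P022D.V Vale.Agent.P022E Vale.Agent.P022E.V
open Vale.Agent.P022D.Gt (cl)
open Vale.Agent.P027M.M (ze)
open Vale.Agent.P022E.Fm.Sb (crt cg_nat kq_mono)

theorem unit_split {N Q : ℕ} [NeZero (N * Q)] (hc : Nat.Coprime N Q) (a : (ZMod (N * Q))ˣ) :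
    ∃ x y : (ZMod (N * Q))ˣ, Cg (N * Q) N x 1 ∧ Cg (N * Q) Q y 1 ∧ a = x * y := by
  obtain ⟨k, h1, h2, h3⟩ := crt hc (Nat.coprime_one_left N)
    ((ZMod.val_coe_unit_coprime a).coprime_dvd_right (dvd_mul_left Q N))
  let x := ZMod.unitOfCoprime k h1
  refine ⟨x, x⁻¹ * a, ?_, ?_, (mul_inv_cancel_left x a).symm⟩
  · rw [ZMod.coe_unitOfCoprime, ← Nat.cast_one]
    exact cg_nat h2
  · obtain ⟨t, ht⟩ := cg_nat (M := N * Q) h3.symm
    rw [ZMod.natCast_zmod_val, ← ZMod.coe_unitOfCoprime k h1] at ht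
    refine ⟨((x⁻¹ : (ZMod (N * Q))ˣ) : ZMod (N * Q)) * t, ?_⟩
    rw [Units.val_mul, ht, mul_add, Units.inv_mul]
    ring

/-- **the bound for the socle**, the level `N₀` has two simple prime factors -/
theorem genDS1 {O F : Type} [CommRing O] [Co O] [IsLocalRing O] [Field F] [CharP F 2]
    {S : P022D.R.Dat O F} {L : Loc.Pl O} (r : ℕ) :
    ∃ b : ℕ, ∀ (M N₀ N i c : ℕ) (l : List ℕ) (z π : O) (A : Finset ℕ), L.OkS S → Unif π →
    Odd M → M = N₀ * l.prod → N ∣ N₀ → (∃ p₁ p₂ N₁ : ℕ, p₁.Prime ∧ p₂.Prime ∧ p₁ ≠ p₂ ∧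
      N₀ = N₁ * p₁ * p₂ ∧ ¬ p₁ ∣ N₁ ∧ ¬ p₂ ∣ N₁) → l.Nodup → (∀ q ∈ l, q.Prime ∧ ¬ q ∣ N₀) →
    l.length = r → Co.j z = ze N 1 → Nat.Coprime c N → ∀ X : Submodule O (FT M (RD O)),
    X ≤ XD O M i ⊓ Iv O _ (Kq M (N * l.prod)) ⊓ Wh O _ M (z ^ c) → (∀ v ∈ X, π • v = 0) →
    (∀ a d : (ZMod M)ˣ, Cg M N₀ a 1 → Cg M N₀ d 1 → ∀ v ∈ X, rt O _ (dg a d) v = v) →
    (∀ (p : ℕ) φ, p.Prime → p ∉ A → ¬ p ∣ 2 * M → IsFrob p φ → ∀ v ∈ X,
      T2 O _ i p (cl M p) v = (L.r φ).trace • v ∧ S2 O _ i p (cl M p) v = v) →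
    ∃ s : Finset (FT M (RD O)), s.card ≤ b ∧ Submodule.span O (s : Set _) = X := by
  obtain ⟨b, hb⟩ := genDS (S := S) (L := L) r
  obtain ⟨b', hb'⟩ := genDS (S := S) (L := L) (r + 2)
  refine ⟨b + b', fun M N₀ N i c l z π A hL hπ ho eM dN h2 nd pr len hz hc X le h0 hd hT => ?_⟩
  have oN : Odd N := ho.of_dvd_nat (dN.trans ⟨_, eM⟩)
  have lp : 0 < l.prod := (ho.of_dvd_nat (Dvd.intro_left _ eM.symm)).pos
  by_cases h3 : 3 ≤ N
  · obtain ⟨s, s1, s2⟩ := hb M N₀ N i c l z π A hL hπ ho eM dN oN.pos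
      (h3.trans (Nat.le_mul_of_pos_right _ lp)) (fun q hq => by
        obtain ⟨k, hk⟩ := List.dvd_prod hq
        rw [hk, mul_left_comm, Nat.mul_div_cancel_left _ (pr q hq).1.pos]
        exact h3.trans (Nat.le_mul_of_pos_right _ (Nat.pos_of_mul_pos_left (hk ▸ lp))))
      nd pr len hz hc X le h0 hd hT
    exact ⟨s, s1.trans (Nat.le_add_right _ _), s2⟩
  obtain rfl : N = 1 := by
    obtain ⟨k, hk⟩ := oN
    omega
  obtain ⟨p₁, p₂, N₁, q1, q2, ne, e0, n1, n2⟩ := h2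
  have d1 : p₁ ∣ N₀ := ⟨N₁ * p₂, by rw [e0]; ring⟩
  have d2 : p₂ ∣ N₀ := ⟨N₁ * p₁, by rw [e0]; ring⟩
  have t3 : ∀ p : ℕ, p.Prime → p ∣ N₀ → 3 ≤ p := fun p hp h => by
    have a := hp.two_le
    obtain ⟨k, hk⟩ := ho.of_dvd_nat (h.trans ⟨_, eM⟩)
    omega
  have pp : 0 < 1 * (p₁ :: p₂ :: l).prod := by
    rw [one_mul, List.prod_cons, List.prod_cons]
    exact Nat.mul_pos q1.pos (Nat.mul_pos q2.pos lp)
  have pr' : ∀ q ∈ p₁ :: p₂ :: l, q.Prime ∧ ¬ q ∣ N₁ := by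
    intro q hq
    rcases List.mem_cons.1 hq with rfl | hq
    · exact ⟨q1, n1⟩
    rcases List.mem_cons.1 hq with rfl | hq
    · exact ⟨q2, n2⟩
    · exact ⟨(pr q hq).1, fun h => (pr q hq).2 (e0 ▸ (h.mul_right _).mul_right _)⟩
  have big : ∀ q ∈ p₁ :: p₂ :: l, ∀ p ∈ p₁ :: p₂ :: l, p ≠ q → 3 ≤ p →
      3 ≤ 1 * (p₁ :: p₂ :: l).prod / q := fun q hq p hp h k => by
    refine k.trans ((Nat.le_div_iff_mul_le (pr' q hq).1.pos).2 (Nat.le_of_dvd pp ?_))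
    rw [one_mul]
    exact ((Nat.coprime_primes (pr' p hp).1 (pr' q hq).1).2 h).mul_dvd_of_dvd_of_dvd
      (List.dvd_prod hp) (List.dvd_prod hq)
  obtain ⟨s, s1, s2⟩ := hb' M N₁ 1 i c (p₁ :: p₂ :: l) z π A hL hπ ho
    (by rw [eM, e0, List.prod_cons, List.prod_cons]; ring) (one_dvd _) one_pos
    ((t3 _ q1 d1).trans (Nat.le_of_dvd pp (by rw [one_mul]; exact List.dvd_prod (by simp))))
    (fun q hq => by
      by_cases e : p₁ = q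
      · exact big q hq p₂ (by simp) (e ▸ ne.symm) (t3 _ q2 d2)
      · exact big q hq p₁ (by simp) e (t3 _ q1 d1))
    (List.nodup_cons.2 ⟨fun h => (List.mem_cons.1 h).elim ne fun h => (pr _ h).2 d1,
      List.nodup_cons.2 ⟨fun h => (pr _ h).2 d2, nd⟩⟩) pr' (by simp [len]) hz hc X
    (fun v hv => ⟨⟨(le hv).1.1, mem_Iv.2 fun g hg => mem_Iv.1 (le hv).1.2 g (kq_mono (by
      rw [one_mul, one_mul, List.prod_cons, List.prod_cons]
      exact (dvd_mul_left _ _).mul_left _) hg)⟩, (le hv).2⟩) h0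
    (fun a d _ _ v hv => by
      subst eM
      haveI : NeZero (N₀ * l.prod) := ⟨ho.pos.ne'⟩
      have cop : Nat.Coprime N₀ l.prod := Nat.coprime_list_prod_right_iff.2 fun q hq =>
        (((pr q hq).1.coprime_iff_not_dvd).2 (pr q hq).2).symm
      obtain ⟨x, y, x1, y1, rfl⟩ := unit_split cop a
      obtain ⟨x', y', x2, y2, rfl⟩ := unit_split cop d
      rw [← dg_mul, ← rt_rt, mem_Iv.1 (le hv).1.2 _ (by rw [one_mul]; exact Cyc.dg_Kq y1 y2),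
        hd x x' x1 x2 v hv]) hT
  exact ⟨s, s1.trans (Nat.le_add_left _ _), s2⟩

/-- two simple prime factors of the level -/
theorem two_C {O F : Type} [CommRing O] [Field F] [IsLocalRing O] [Co O] {U : Fm.Su O F}
    (hU : U.OkS) : ∃ p₁ p₂ N₁ : ℕ, p₁.Prime ∧ p₂.Prime ∧ p₁ ≠ p₂ ∧
      U.N = N₁ * p₁ * p₂ ∧ ¬ p₁ ∣ N₁ ∧ ¬ p₂ ∣ N₁ := by
  classical
  obtain ⟨p, hp⟩ := hU.C1
  obtain ⟨q, hq, ne⟩ := hU.C2 p
  have pr : ∀ a ∈ U.L.C, a.Prime := fun a ha => (hU.ok.pr a (Finset.mem_union_right _ ha)).1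
  have nd : ∀ a ∈ U.L.C, a ∉ (U.L.C.erase p).erase q → ¬ a ∣ ∏ x ∈ (U.L.C.erase p).erase q, x :=
    fun a ha h e => by
      obtain ⟨x, hx, e'⟩ := ((pr a ha).prime.dvd_finset_prod_iff _).1 e
      rw [(Nat.prime_dvd_prime_iff_eq (pr a ha) (pr x (Finset.mem_of_mem_erase
        (Finset.mem_of_mem_erase hx)))).1 e'] at h
      exact h hx
  refine ⟨q, p, ∏ x ∈ (U.L.C.erase p).erase q, x, pr q hq, pr p hp, ne, ?_, nd q hq (by simp),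
    nd p hp (by simp)⟩
  rw [Fm.Su.N, hU.NW1, one_mul, hU.NC, Finset.prod_erase_mul _ _ (Finset.mem_erase.2 ⟨ne, hq⟩),
    Finset.prod_erase_mul _ _ hp]

end Vale.Agent.P022S.Gt
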