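import Vale.Agent.P022S.Gt.Ops

/-!
# P022S, block Gt: existence of the Galois operators
-/

set_option linter.all false

open Matrix
open scoped MatrixGroups NumberField

noncomputable section

namespace Vale.Agent.P022S.Gt

open Vale.Agent.P022 Vale.Agent.P022D Vale.Agent.P022D.V Vale.Agent.P022.H853
open Vale.Agent.P022D.Gt (Lv CLGD cl nd2 cyc_eq nd_of cyc_inert Uq_self Uq_dg not_mem_pf
  det_of ex_two inert_fix S2_one law_mem cm_app ifl_cl)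

variable {O : Type} [CommRing O] [Co O]

/-- the operators on a torus stable submodule -/
theorem core (hC : CLGD O) (hD : DIV O) (hG : GAL2s) {M N₁ i ℓ₀ : ℕ} [NeZero M] (lv : Lv M ℓ₀)
    (hN : N₁ ∣ M) (V : Submodule O (FT M (RD O))) (le : V ≤ XD O M i ⊓ Iv O _ (Uq M N₁))
    (hT : ∀ (p : ℕ) (u : (ZMod M)ˣ), p.Prime → p ≠ 2 → (u : ZMod M) = p → ∀ v ∈ V,
      T2 O _ i p u v ∈ V) (hR : ∀ a d, ∀ v ∈ V, rt O _ (dg a d) v ∈ V) :
    ∃ t d : GQ → Module.End O V, G.Law t d ∧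
      (∀ (p : ℕ) (u : (ZMod M)ˣ) φ, p.Prime → p ≠ 2 → (u : ZMod M) = p → IsFrob p φ → ∀ v,
        (t φ v : FT M (RD O)) = T2 O _ i p u v ∧ (d φ v : FT M (RD O)) = S2 O _ i p u v) ∧
      (∀ p : ℕ, p.Prime → ¬ p ∣ 2 * M → ∀ σ, G.Inert p σ → d σ = 1 ∧ ∀ g, t (g * σ) = t g) ∧
      (∀ v : V, ∃ s : Set V, s.Finite ∧ v ∈ s ∧ ∀ w ∈ s, ∀ g, ∃ w₁ ∈ s, ∃ w₂ ∈ s, ∃ h₁ h₂,
        (t g w : FT M (RD O)) = rt O _ h₁ w₁ ∧ (d g w : FT M (RD O)) = rt O _ h₂ w₂) ∧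
      (∀ c, IsConj c → d c = -1) ∧
      ∀ M' q, N₁ * M = M' * q → q.Prime → ¬ q ∣ M' → ∀ σ, G.Inert q σ → ∀ v : V,
        (t σ v : FT M (RD O)) = rt O _ (dg 1 (cyc M σ)) v +
          rt O _ (dg 1 (cyc M σ)⁻¹) (d σ v) := by
  have hN0 : N₁ ≠ 0 := fun e => NeZero.ne M (by rwa [e, zero_dvd_iff] at hN)
  haveI : NeZero (N₁ * M) := ⟨mul_ne_zero hN0 (NeZero.ne M)⟩
  have pa : ∀ p : ℕ, p.Prime → ¬ p ∣ 2 * M → ¬ p ∣ 2 * (N₁ * M) := fun p hp h e => by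
    rcases (Nat.Prime.dvd_mul hp).1 e with e | e
    · exact h (e.mul_right M)
    · exact h (((Nat.Prime.dvd_mul hp).1 e).elim (fun e => (e.trans hN).mul_left 2)
        fun e => e.mul_left 2)
  have pb : ∀ ℓ : PA (N₁ * M), ¬ ℓ.1 ∣ 2 * M := fun ℓ e =>
    ℓ.2.2 (e.trans (mul_dvd_mul_left 2 (dvd_mul_left M N₁)))
  let u : PA (N₁ * M) → (ZMod M)ˣ := fun ℓ => cl M ℓ.1
  have hS : ∀ (p : ℕ) (a : (ZMod M)ˣ), ∀ v ∈ V, S2 O _ i p a v ∈ V := fun p a v hv => by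
    rw [S2_apply, Sf_apply, pw_apply, ep_apply]
    exact nsmul_mem (hR _ _ _ (add_mem hv (nsmul_mem (sub_mem hv (zsmul_mem (hR _ _ _ hv) _)) _))) _
  let ρ : (ZMod M)ˣ →* Module.End O V :=
    { toFun := fun b => (rt O (RD O) (dg 1 b)).toLinearMap.restrict (hR 1 b)
      map_one' := LinearMap.ext fun v => Subtype.ext (by
        change rt O (RD O) (dg 1 1) (v : FT M (RD O)) = v
        rw [dg_one, rt_one])
      map_mul' := fun a b => LinearMap.ext fun v => Subtype.ext (by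
        change rt O (RD O) (dg 1 (a * b)) (v : FT M (RD O)) =
          rt O (RD O) (dg 1 a) (rt O (RD O) (dg 1 b) v)
        rw [rt_rt, dg_mul, one_mul]) }
  have ρc : ∀ b (v : V), (ρ b v : FT M (RD O)) = rt O _ (dg 1 b) v := fun _ _ => rfl
  let α : G.Wd (N₁ * M) →ₐ[ℤ] Module.End O V := FreeAlgebra.lift ℤ (Sum.elim
    (fun ℓ => (T2 O (RD O) i ℓ.1 (u ℓ)).restrict
      (hT ℓ.1 (u ℓ) ℓ.2.1 (nd2 ℓ.2.1 (pb ℓ)).1 (nd2 ℓ.2.1 (pb ℓ)).2) * ρ (u ℓ)⁻¹)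
    (fun ℓ => (S2 O (RD O) i ℓ.1 (u ℓ)).restrict (hS ℓ.1 (u ℓ)) * ρ ((u ℓ)⁻¹ * (u ℓ)⁻¹)))
  have αc : ∀ Q (v : V), (α Q v : FT M (RD O)) = wd O (RD O) i u u Q v := by
    intro Q
    induction Q using FreeAlgebra.induction with
    | grade0 r =>
      intro v
      rw [AlgHom.commutes, AlgHom.commutes]
      simp only [Algebra.algebraMap_eq_smul_one, LinearMap.smul_apply, Module.End.one_apply,
        Submodule.coe_smul_of_tower]
    | grade1 s =>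
      intro v
      rw [wd, FreeAlgebra.lift_ι_apply, FreeAlgebra.lift_ι_apply]
      cases s <;> rfl
    | mul x y hx hy =>
      intro v
      rw [map_mul, map_mul, Module.End.mul_apply, Module.End.mul_apply, hx, hy]
    | add x y hx hy =>
      intro v
      rw [map_add, map_add, LinearMap.add_apply, LinearMap.add_apply, Submodule.coe_add, hx, hy]
  have αT : ∀ ℓ (v : V), (α (G.wT ℓ) v : FT M (RD O)) =
      T2 O _ i ℓ.1 (u ℓ) (rt O _ (dg 1 (u ℓ)⁻¹) v) := fun ℓ v => by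
    rw [αc, wd, G.wT, FreeAlgebra.lift_ι_apply]; rfl
  have αS : ∀ ℓ (v : V), (α (G.wS ℓ) v : FT M (RD O)) =
      S2 O _ i ℓ.1 (u ℓ) (rt O _ (dg 1 ((u ℓ)⁻¹ * (u ℓ)⁻¹)) v) := fun ℓ v => by
    rw [αc, wd, G.wS, FreeAlgebra.lift_ι_apply]; rfl
  have ρα : ∀ b Q, Commute (ρ b) (α Q) := by
    intro b Q
    induction Q using FreeAlgebra.induction with
    | grade0 r => rw [AlgHom.commutes]; exact (Algebra.commutes r _).symm
    | grade1 s =>
      refine LinearMap.ext fun v => Subtype.ext ?_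
      cases s with
      | inl ℓ =>
        change (ρ b (α (G.wT ℓ) v) : FT M (RD O)) = α (G.wT ℓ) (ρ b v)
        rw [ρc, αT, αT, ρc, rt_T2, rt_rt, rt_rt, dg_comm]
      | inr ℓ =>
        change (ρ b (α (G.wS ℓ) v) : FT M (RD O)) = α (G.wS ℓ) (ρ b v)
        rw [ρc, αS, αS, ρc, rt_S2, rt_rt, rt_rt, dg_comm]
    | mul x y hx hy => rw [map_mul]; exact hx.mul_right hy
    | add x y hx hy => rw [map_add]; exact hx.add_right hy
  have ds : Dsc (α : G.Wd (N₁ * M) →+* Module.End O V) := by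
    refine ⟨fun v => ?_⟩
    obtain ⟨K, hK, e⟩ := hC M N₁ (N₁ * M) u i lv.odd lv.three hN rfl
      (fun ℓ => (nd2 ℓ.2.1 (pb ℓ)).2) v (le v.2)
    obtain ⟨n, hn⟩ := ((hD M lv.odd lv.three).2.2.2.1 i v (le v.2).1).1
    refine ⟨K, n, hK, Subtype.ext ?_, fun Q hQ => Subtype.ext ((αc Q v).trans (e Q hQ))⟩
    rw [← Nat.cast_smul_eq_nsmul O, Nat.cast_pow, Nat.cast_ofNat]
    exact hn
  obtain ⟨t, d, co⟩ := ex_core hG ((lv.odd.of_dvd_nat hN).mul lv.odd) ds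
  let c : GQ →* Module.End O V := ρ.comp (cyc M)
  have cc : ∀ g (v : V), (c g v : FT M (RD O)) = rt O _ (dg 1 (cyc M g)) v := fun _ _ => rfl
  have cm := fun g k v => co.cm (f := c g) (fun Q v => LinearMap.congr_fun (ρα _ Q).eq v) k v
  refine ⟨fun g => c g * t g, fun g => c g * c g * d g, co.law.twist c (fun g k => ?_)
    (fun g k => LinearMap.ext fun v => (cm g k v).1) (fun g k => LinearMap.ext fun v => (cm g k v).2)
    (fun v => ⟨(cyc M).ker, inferInstance, isOpen_cyc M, fun x hx => ?_⟩),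
    fun p a φ hp p2 ha hφ v => ?_, fun p hp hM σ hσ => ?_, fun v => ?_, fun x hx => ?_,
    fun M' q e hq hM' σ hσ v => ?_⟩
  · exact (Commute.all (cyc M g) (cyc M k)).map ρ
  · change ρ (cyc M x) v = v
    rw [show cyc M x = 1 from hx, map_one]; rfl
  · have hp2 : ¬ p ∣ 2 * M := fun e => ((Nat.Prime.dvd_mul hp).1 e).elim
      (fun e => p2 ((Nat.prime_dvd_prime_iff_eq hp Nat.prime_two).1 e)) (nd_of hp ha)
    let ℓ : PA (N₁ * M) := ⟨p, hp, pa p hp hp2⟩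
    have e1 : u ℓ = a := Units.ext ((nd2 hp hp2).2.trans ha.symm)
    have e2 := cyc_eq hp ha hφ
    constructor
    · change (c φ (t φ v) : FT M (RD O)) = _
      rw [co.frT ℓ hφ, cc]
      change rt O _ _ (α (G.wT ℓ) v : FT M (RD O)) = _
      rw [αT, e1, e2, rt_T2, rt_rt, dg_mul, one_mul, mul_inv_cancel, dg_one, rt_one]
    · change (c φ (c φ (d φ v)) : FT M (RD O)) = _
      rw [co.frS ℓ hφ, cc, cc]
      change rt O _ _ (rt O _ _ (α (G.wS ℓ) v : FT M (RD O))) = _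
      rw [αS, e1, e2, rt_rt, rt_S2, rt_rt, dg_mul, dg_mul, one_mul, one_mul,
        show a * a * (a⁻¹ * a⁻¹) = 1 by group, dg_one, rt_one]
  · have e1 : c σ = 1 := by
      change ρ (cyc M σ) = 1
      rw [cyc_inert hp (fun e => hM (e.mul_left 2)) hσ, map_one]
    obtain ⟨a, b⟩ := co.unr ⟨p, hp, pa p hp hM⟩ hσ
    exact ⟨by simp only [e1, a, one_mul], fun g => by simp only [map_mul, e1, b, mul_one]⟩
  · refine ⟨_, co.fin v, ⟨1, by simp⟩, ?_⟩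
    rintro _ ⟨X, rfl⟩ g
    obtain ⟨P, Q, e⟩ := co.loc {(α : G.Wd (N₁ * M) →+* Module.End O V) X v} g
    obtain ⟨e1, e2⟩ := e _ (Finset.mem_singleton_self _)
    refine ⟨_, ⟨P * X, rfl⟩, _, ⟨Q * X, rfl⟩, dg 1 (cyc M g), dg 1 (cyc M g) * dg 1 (cyc M g), ?_, ?_⟩
    · change (c g (t g _) : FT M (RD O)) = _
      beta_reduce
      rw [e1, cc, map_mul, Module.End.mul_apply]
    · change (c g (c g (d g _)) : FT M (RD O)) = _
      beta_reduce
      rw [e2, cc, cc, rt_rt, map_mul (α : G.Wd (N₁ * M) →+* Module.End O V), Module.End.mul_apply]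
  · have e1 : c x * c x = 1 := by
      change ρ (cyc M x) * ρ (cyc M x) = 1
      rw [← map_mul, show cyc M x = -1 from Units.ext (cyc_conj hx), neg_mul_neg, one_mul, map_one]
    simp only [e1, co.dc hx, one_mul]
  · change (c σ (t σ v) : FT M (RD O)) = _ + rt O _ _ (c σ (c σ (d σ v)) : FT M (RD O))
    rw [co.i1 e hq hM' hσ, LinearMap.add_apply, map_add, Submodule.coe_add, cc, cc, cc, cc, rt_rt,
      dg_mul, one_mul, inv_mul_cancel, dg_one, rt_one, Module.End.one_apply]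

section xo

variable {M i ℓ₀ : ℕ}

theorem Xo_T2 (hK : HKV O) (lv : Lv M ℓ₀) {p : ℕ} {u : (ZMod M)ˣ} (hp : p.Prime) (p2 : p ≠ 2)
    (hu : (u : ZMod M) = p) {v : FT M (RD O)} (hv : v ∈ Xo O M i ℓ₀) :
    T2 O _ i p u v ∈ Xo O M i ℓ₀ := ((hK M i p u lv.odd hp p2 hu).2.2 v hv).1

theorem Xo_rt (hK : HKV O) (hD : DIV O) (lv : Lv M ℓ₀) (h : GM M) {v : FT M (RD O)}
    (hv : v ∈ Xo O M i ℓ₀) : rt O _ h v ∈ Xo O M i ℓ₀ :=
  ((hD M lv.odd lv.three).2.2.2.1 i v hv).2.1 h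

/-- right translations on the carrier -/
def rX (hK : HKV O) (hD : DIV O) (lv : Lv M ℓ₀) (i : ℕ) : GM M →* Module.End O (Xo O M i ℓ₀) where
  toFun h := (rt O (RD O) h).toLinearMap.restrict fun _ => Xo_rt hK hD lv h
  map_one' := LinearMap.ext fun v => Subtype.ext (rt_one (S := O) (v : FT M (RD O)))
  map_mul' a b := LinearMap.ext fun v => Subtype.ext (rt_rt (S := O) a b (v : FT M (RD O))).symm

theorem rX_coe (hK : HKV O) (hD : DIV O) (lv : Lv M ℓ₀) (h : GM M) (v : Xo O M i ℓ₀) :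
    (rX hK hD lv i h v : FT M (RD O)) = rt O _ h v := rfl

end xo

theorem Xo_le {M i ℓ₀ : ℕ} : Xo O M i ℓ₀ ≤ XD O M i := fun _ h => h

/-- **GT** -/
theorem gt (hC : CLGD O) (hD : DIV O) (hK : HKV O) (hG : GAL2s) : GT O := by
  intro M _ i ℓ₀ lv
  obtain ⟨t, d, law, fr, unr, fin, dc, -⟩ := core hC hD hG lv dvd_rfl (Xo O M i ℓ₀)
    (fun v hv => ⟨hv, Uq_self v⟩) (fun p u hp p2 hu v => Xo_T2 hK lv hp p2 hu)
    (fun a d v => Xo_rt hK hD lv _)
  have frS := fun p u φ a b c e v => (fr p u φ a b c e v).2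
  have cm : ∀ h g v, rX hK hD lv i h (t g v) = t g (rX hK hD lv i h v) ∧
      rX hK hD lv i h (d g v) = d g (rX hK hD lv i h v) := fun h =>
    law.nat law (rX hK hD lv i h).toAddMonoidHom (2 * M).primeFactors fun ℓ φ hl hS hφ v => by
      obtain ⟨l2, lu⟩ := nd2 hl (not_mem_pf (NeZero.ne M) hl hS)
      constructor <;> apply Subtype.ext
      · change rt O _ h (t φ v : FT M (RD O)) = t φ (rX hK hD lv i h v)
        rw [(fr ℓ _ φ hl l2 lu hφ _).1, (fr ℓ _ φ hl l2 lu hφ _).1, rt_T2, rX_coe]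
      · change rt O _ h (d φ v : FT M (RD O)) = d φ (rX hK hD lv i h v)
        rw [(fr ℓ _ φ hl l2 lu hφ _).2, (fr ℓ _ φ hl l2 lu hφ _).2, rt_S2, rX_coe]
  refine ⟨t, d, law, fun p u φ a b c e v => (fr p u φ a b c e v).1, frS, unr, fun v => ?_,
    det_of law frS, dc, fun M₀ q sp σ hσ v hv => ?_⟩
  · classical
    obtain ⟨s, hs, hv, cl⟩ := fin v
    have hf : (Set.image2 (fun h w => rX hK hD lv i h w) Set.univ s).Finite :=
      Set.Finite.image2 _ Set.finite_univ hs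
    refine ⟨hf.toFinset, hf.mem_toFinset.2 ⟨1, trivial, v, hv, by simp⟩, fun w hw => ?_⟩
    obtain ⟨h, -, x, hx, rfl⟩ := hf.mem_toFinset.1 hw
    refine ⟨fun g => ?_, fun h' w' e => hf.mem_toFinset.2 ⟨h' * h, trivial, x, hx, ?_⟩⟩
    · obtain ⟨w₁, a₁, w₂, a₂, h₁, h₂, e₁, e₂⟩ := cl x hx g
      refine ⟨hf.mem_toFinset.2 ⟨h * h₁, trivial, w₁, a₁, ?_⟩,
        hf.mem_toFinset.2 ⟨h * h₂, trivial, w₂, a₂, ?_⟩⟩
      · beta_reduce
        rw [← (cm h g x).1]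
        exact Subtype.ext (by rw [rX_coe, rX_coe, e₁, rt_rt])
      · beta_reduce
        rw [← (cm h g x).2]
        exact Subtype.ext (by rw [rX_coe, rX_coe, e₂, rt_rt])
    · exact Subtype.ext (by rw [e, rX_coe, rX_coe, rt_rt])
  · obtain ⟨t', d', law', fr', -, -, -, i1⟩ := core hC hD hG lv sp.dvd
      (Xo O M i ℓ₀ ⊓ Iv O _ (Uq M M₀)) (fun v hv => hv)
      (fun p u hp p2 hu v hv => ⟨Xo_T2 hK lv hp p2 hu hv.1, Iv_T2 i p u hv.2⟩)
      (fun a d v hv => ⟨Xo_rt hK hD lv _ hv.1, Uq_dg a d hv.2⟩)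
    have q2 : q ≠ 2 := fun e => by
      have := sp.odd
      rw [sp.eq, e] at this
      exact absurd this (by simp)
    have nat := law'.nat law (Submodule.inclusion (inf_le_left : Xo O M i ℓ₀ ⊓ Iv O _ (Uq M M₀) ≤
      Xo O M i ℓ₀)).toAddMonoidHom (2 * M).primeFactors (fun ℓ φ hl hS hφ v => by
        obtain ⟨l2, lu⟩ := nd2 hl (not_mem_pf (NeZero.ne M) hl hS)
        exact ⟨Subtype.ext (((fr' ℓ _ φ hl l2 lu hφ v).1).trans
            (fr ℓ _ φ hl l2 lu hφ ⟨v, v.2.1⟩).1.symm),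
          Subtype.ext (((fr' ℓ _ φ hl l2 lu hφ v).2).trans
            (fr ℓ _ φ hl l2 lu hφ ⟨v, v.2.1⟩).2.symm)⟩)
      σ ⟨v, v.2, hv⟩
    have h1 := i1 (M₀ * M₀) q (by rw [mul_assoc, ← sp.eq]) sp.prime (fun e =>
      (Nat.Prime.coprime_iff_not_dvd sp.prime).1 sp.cop.symm
        (((Nat.Prime.dvd_mul sp.prime).1 e).elim id id)) σ hσ ⟨v, v.2, hv⟩
    obtain ⟨a, ha⟩ := ex_two hD lv.odd lv.three le_rfl v
    have h2 := det_of law frS a 1 σ v ha odd_one (inert_fix sp.prime q2 hσ)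
    have h3 : (t σ v : FT M (RD O)) = t' σ ⟨v, v.2, hv⟩ := (congrArg Subtype.val nat.1).symm
    have h4 : (d' σ ⟨v, v.2, hv⟩ : FT M (RD O)) = d σ v := congrArg Subtype.val nat.2
    rw [h3, h1, h4, h2, S2_one, rt_rt, dg_mul, one_mul, inv_mul_cancel, add_comm]

end Vale.Agent.P022S.Gt
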