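import Vale.Agent.P022S.Gt.Main

/-!
# P022S, block Gt: naturality of the Galois operators
-/

set_option linter.all false

open Matrix
open scoped MatrixGroups NumberField

noncomputable section

namespace Vale.Agent.P022S.Gt

open Vale.Agent.P022 Vale.Agent.P022D Vale.Agent.P022D.V Vale.Agent.P022.H853
open Vale.Agent.P022D.Gt (Lv CLGD cl nd2 cyc_eq nd_of cyc_inert Uq_self Uq_dg not_mem_pf
  det_of ex_two inert_fix S2_one law_mem cm_app ifl_cl)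

variable {O : Type} [CommRing O] [Co O] {M M' i ℓ₀ : ℕ} [NeZero M] [NeZero M']
  {t d : GQ → Module.End O (Xo O M i ℓ₀)}

theorem Ga.fr (h : Ga M i ℓ₀ t d) {p : ℕ} (hp : p.Prime) (hM : ¬ p ∣ 2 * M) {φ : GQ}
    (hφ : IsFrob p φ) (v : Xo O M i ℓ₀) :
    (t φ v : FT M (RD O)) = T2 O _ i p (cl M p) v ∧ (d φ v : FT M (RD O)) = S2 O _ i p (cl M p) v :=
  ⟨h.frT p _ φ hp (nd2 hp hM).1 (nd2 hp hM).2 hφ v, h.frS p _ φ hp (nd2 hp hM).1 (nd2 hp hM).2 hφ v⟩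

/-- **naturality**: an additive map on a stable subgroup `N` which commutes with almost all Hecke
operators commutes with the Galois operators -/
theorem Ga.nat {i' ℓ₁ : ℕ} {t' d' : GQ → Module.End O (Xo O M' i' ℓ₁)} (h : Ga M i ℓ₀ t d)
    (h' : Ga M' i' ℓ₁ t' d') (S : Finset ℕ) (N : AddSubgroup (FT M (RD O)))
    (f : FT M (RD O) →+ FT M' (RD O))
    (hN : ∀ p : ℕ, p.Prime → p ∉ S → ¬ p ∣ 2 * M → ¬ p ∣ 2 * M' → ∀ v ∈ N,
      T2 O _ i p (cl M p) v ∈ N ∧ S2 O _ i p (cl M p) v ∈ N ∧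
      f (T2 O _ i p (cl M p) v) = T2 O _ i' p (cl M' p) (f v) ∧
      f (S2 O _ i p (cl M p) v) = S2 O _ i' p (cl M' p) (f v))
    (g : GQ) (v : Xo O M i ℓ₀) (v' : Xo O M' i' ℓ₁) (hv : (v : FT M (RD O)) ∈ N)
    (e : (v' : FT M' (RD O)) = f v) :
    (t' g v' : FT M' (RD O)) = f (t g v) ∧ (d' g v' : FT M' (RD O)) = f (d g v) := by
  classical
  obtain ⟨U, n, o, eU⟩ := h.law.opn v
  obtain ⟨U', n', o', eU'⟩ := h'.law.opn v'
  obtain ⟨ℓ, φ, k, hl, hS, hφ, hu⟩ := G.frob (U ⊓ U') inferInstance (o.inter o') g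
    (S ∪ ((2 * M).primeFactors ∪ (2 * M').primeFactors))
  rw [Finset.mem_union, Finset.mem_union, not_or, not_or] at hS
  have m1 := not_mem_pf (NeZero.ne M) hl hS.2.1
  have m2 := not_mem_pf (NeZero.ne M') hl hS.2.2
  let R : Xo O M i ℓ₀ → Xo O M' i' ℓ₁ → Prop := fun a b =>
    (a : FT M (RD O)) ∈ N ∧ (b : FT M' (RD O)) = f a
  have H : ∀ a b, R a b → R (t φ a) (t' φ b) ∧ R (d φ a) (d' φ b) := fun a b r => by
    obtain ⟨x1, x2, x3, x4⟩ := hN ℓ hl hS.1 m1 m2 a r.1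
    exact ⟨⟨by rw [(h.fr hl m1 hφ a).1]; exact x1,
        by rw [(h.fr hl m1 hφ a).1, (h'.fr hl m2 hφ b).1, x3, r.2]⟩,
      ⟨by rw [(h.fr hl m1 hφ a).2]; exact x2,
        by rw [(h.fr hl m1 hφ a).2, (h'.fr hl m2 hφ b).2, x4, r.2]⟩⟩
  have Rs : ∀ a b a' b', R a b → R a' b' → R (a - a') (b - b') := fun a b a' b' r r' =>
    ⟨N.sub_mem r.1 r'.1, by rw [Submodule.coe_sub, Submodule.coe_sub, map_sub, r.2, r'.2]⟩
  have ht : ∀ k : ℕ, (∀ a b, R a b → R (t (φ ^ k) a) (t' (φ ^ k) b)) ∧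
      ∀ a b, R a b → R (t (φ ^ (k + 1)) a) (t' (φ ^ (k + 1)) b) := by
    intro k
    induction k with
    | zero =>
      refine ⟨fun a b r => ?_, fun a b r => by rw [zero_add, pow_one]; exact (H a b r).1⟩
      rw [pow_zero, h.law.one, h'.law.one, Module.End.ofNat_apply, Module.End.ofNat_apply]
      exact ⟨N.nsmul_mem r.1 _, by
        rw [Submodule.coe_smul_of_tower, Submodule.coe_smul_of_tower, map_nsmul, r.2]⟩
    | succ k ih =>
      refine ⟨ih.2, fun a b r => ?_⟩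
      have x := LinearMap.congr_fun (h.law.mul (φ ^ (k + 1)) φ) a
      have y := LinearMap.congr_fun (h'.law.mul (φ ^ (k + 1)) φ) b
      rw [← pow_succ, pow_succ φ k, mul_inv_cancel_right, ← pow_succ φ k, LinearMap.add_apply,
        Module.End.mul_apply, Module.End.mul_apply] at x y
      rw [eq_sub_of_add_eq x.symm, eq_sub_of_add_eq y.symm]
      exact Rs _ _ _ _ (ih.2 _ _ (H a b r).1) (H _ _ (ih.1 a b r)).2
  have hd : ∀ (k : ℕ) a b, R a b → R (d (φ ^ k) a) (d' (φ ^ k) b) := by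
    intro k
    induction k with
    | zero => intro a b r; rw [pow_zero, h.law.d1, h'.law.d1]; exact r
    | succ k ih =>
      intro a b r
      rw [pow_succ, h.law.dm, h'.law.dm, Module.End.mul_apply, Module.End.mul_apply]
      exact ih _ _ (H a b r).2
  have eg : φ ^ k = g * (g⁻¹ * φ ^ k) := by rw [mul_inv_cancel_left]
  constructor
  · rw [← (eU _ hu.1).2 g, ← (eU' _ hu.2).2 g, ← eg]
    exact ((ht k).1 v v' ⟨hv, e⟩).2
  · have a := (hd k v v' ⟨hv, e⟩).2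
    rw [eg, h.law.dm, h'.law.dm, Module.End.mul_apply, Module.End.mul_apply, (eU _ hu.1).1,
      (eU' _ hu.2).1] at a
    exact a

/-- the operators commute with the right translations -/
theorem Ga.rt (h : Ga M i ℓ₀ t d) (x : GM M) (g : GQ)
    (v v' : Xo O M i ℓ₀) (e : (v' : FT M (RD O)) = V.rt O _ x v) :
    (t g v' : FT M (RD O)) = V.rt O _ x (t g v) ∧ (d g v' : FT M (RD O)) = V.rt O _ x (d g v) :=
  h.nat h ∅ ⊤ (V.rt O (RD O) x).toLinearMap.toAddMonoidHom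
    (fun p _ _ _ _ v _ => ⟨trivial, trivial, rt_T2 x i p _ v, rt_S2 x i p _ v⟩)
    g v v' trivial e

theorem Ga.crX (h : Ga M i ℓ₀ t d) (hK : HKV O) (hD : DIV O) (lv : Lv M ℓ₀) (x : GM M) (g : GQ) :
    Commute (rX hK hD lv i x) (t g) ∧ Commute (rX hK hD lv i x) (d g) :=
  ⟨LinearMap.ext fun v => Subtype.ext (h.rt x g v (rX hK hD lv i x v) rfl).1.symm,
    LinearMap.ext fun v => Subtype.ext (h.rt x g v (rX hK hD lv i x v) rfl).2.symm⟩

/-- a subgroup which is stable under almost all Hecke operators is stable -/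
theorem Ga.mem (h : Ga M i ℓ₀ t d) (S : Finset ℕ) (N : AddSubgroup (FT M (RD O)))
    (hN : ∀ p : ℕ, p.Prime → p ∉ S → ¬ p ∣ 2 * M → ∀ v ∈ N,
      T2 O _ i p (cl M p) v ∈ N ∧ S2 O _ i p (cl M p) v ∈ N) (g : GQ) (v : Xo O M i ℓ₀)
    (hv : (v : FT M (RD O)) ∈ N) :
    (t g v : FT M (RD O)) ∈ N ∧ (d g v : FT M (RD O)) ∈ N := by
  classical
  refine law_mem h.law (S ∪ (2 * M).primeFactors)
    (N.comap (Xo O M i ℓ₀).subtype.toAddMonoidHom) (fun ℓ φ hl hS hφ v hv => ?_) g hv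
  rw [Finset.mem_union, not_or] at hS
  have m1 := not_mem_pf (NeZero.ne M) hl hS.2
  have := hN ℓ hl hS.1 m1 v hv
  rw [← (h.fr hl m1 hφ v).1, ← (h.fr hl m1 hφ v).2] at this
  exact this

/-- the operators commute -/
theorem Ga.comm (h : Ga M i ℓ₀ t d) (g k : GQ) :
    Commute (t g) (t k) ∧ Commute (t g) (d k) ∧ Commute (d g) (d k) := by
  have fr : ∀ (p : ℕ) φ, p.Prime → p ∉ (2 * M).primeFactors → IsFrob p φ → ∀ k v,
      (t φ (t k v) = t k (t φ v) ∧ t φ (d k v) = d k (t φ v)) ∧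
      (d φ (t k v) = t k (d φ v) ∧ d φ (d k v) = d k (d φ v)) := fun p φ hp hS hφ k v => by
    have m := not_mem_pf (NeZero.ne M) hp hS
    refine ⟨h.law.nat h.law (t φ).toAddMonoidHom (2 * M).primeFactors (fun q ψ hq hS' hψ v => ?_) k v,
      h.law.nat h.law (d φ).toAddMonoidHom (2 * M).primeFactors (fun q ψ hq hS' hψ v => ?_) k v⟩
    · have m' := not_mem_pf (NeZero.ne M) hq hS'
      constructor <;> apply Subtype.ext
      · change (t φ (t ψ v) : FT M (RD O)) = t ψ (t φ v)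
        rw [(h.fr hp m hφ _).1, (h.fr hq m' hψ _).1, (h.fr hq m' hψ _).1, (h.fr hp m hφ _).1]
        exact cm_app (T2_comm (S := O) (R := RD O) i hp hq (nd2 hp m).2 (nd2 hq m').2) _
      · change (t φ (d ψ v) : FT M (RD O)) = d ψ (t φ v)
        rw [(h.fr hp m hφ _).1, (h.fr hq m' hψ _).2, (h.fr hq m' hψ _).2, (h.fr hp m hφ _).1]
        exact cm_app (T2_S2_comm (S := O) (R := RD O) i i p q _ _) _
    · have m' := not_mem_pf (NeZero.ne M) hq hS'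
      constructor <;> apply Subtype.ext
      · change (d φ (t ψ v) : FT M (RD O)) = t ψ (d φ v)
        rw [(h.fr hp m hφ _).2, (h.fr hq m' hψ _).1, (h.fr hq m' hψ _).1, (h.fr hp m hφ _).2]
        exact (cm_app (T2_S2_comm (S := O) (R := RD O) i i q p _ _) _).symm
      · change (d φ (d ψ v) : FT M (RD O)) = d ψ (d φ v)
        rw [(h.fr hp m hφ _).2, (h.fr hq m' hψ _).2, (h.fr hq m' hψ _).2, (h.fr hp m hφ _).2]
        exact cm_app (S2_comm (S := O) (R := RD O) i i p q _ _) _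
  have a := fun v => h.law.nat h.law (t k).toAddMonoidHom (2 * M).primeFactors
    (fun p φ hp hS hφ v => ⟨(fr p φ hp hS hφ k v).1.1.symm, (fr p φ hp hS hφ k v).2.1.symm⟩) g v
  have b := fun v => h.law.nat h.law (d k).toAddMonoidHom (2 * M).primeFactors
    (fun p φ hp hS hφ v => ⟨(fr p φ hp hS hφ k v).1.2.symm, (fr p φ hp hS hφ k v).2.2.symm⟩) g v
  exact ⟨LinearMap.ext fun v => (a v).1.symm, LinearMap.ext fun v => (b v).1.symm,
    LinearMap.ext fun v => (b v).2.symm⟩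

/-- inertia at an odd prime acts through the scalars -/
theorem Ga.dI (h : Ga M i ℓ₀ t d) (hD : DIV O) (lv : Lv M ℓ₀) {q : ℕ} (hq : q.Prime) (q2 : q ≠ 2)
    {σ : GQ} (hσ : G.Inert q σ) (v : Xo O M i ℓ₀) :
    (d σ v : FT M (RD O)) = V.rt O _ (dg (cyc M σ) (cyc M σ)) v := by
  obtain ⟨a, ha⟩ := ex_two hD lv.odd lv.three le_rfl v
  rw [h.det a 1 σ v ha odd_one (inert_fix hq q2 hσ), S2_one]

section level

variable {M₀ : ℕ} [NeZero M₀] (hd : M₀ ∣ M)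

omit [NeZero M] [NeZero M₀] in
/-- the carrier of lower level -/
theorem Xo_ifl (hK : HKV O) (hV : DESCV O) (lv : Lv M ℓ₀) (h3 : 3 ≤ M₀) :
    (Xo O M₀ i ℓ₀).map (ifl O _ hd) = Xo O M i ℓ₀ ⊓ Iv O _ (Kq M M₀) :=
  ((hV M₀ M hd lv.odd h3).2 i).2

/-- the operators are compatible with the change of level -/
theorem Ga.ifl {t₀ d₀ : GQ → Module.End O (Xo O M₀ i ℓ₀)} (h₀ : Ga M₀ i ℓ₀ t₀ d₀)
    (h : Ga M i ℓ₀ t d) (g : GQ)
    (v₀ : Xo O M₀ i ℓ₀) (v : Xo O M i ℓ₀) (e : (v : FT M (RD O)) = V.ifl O _ hd v₀) :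
    (t g v : FT M (RD O)) = V.ifl O _ hd (t₀ g v₀) ∧
      (d g v : FT M (RD O)) = V.ifl O _ hd (d₀ g v₀) :=
  h₀.nat h ∅ ⊤ (V.ifl O (RD O) hd).toAddMonoidHom
    (fun p hp _ _ m v _ => ⟨trivial, trivial, (ifl_cl hd hp m v).1, (ifl_cl hd hp m v).2⟩)
    g v₀ v trivial e

/-- vectors of level prime to `l`: unramified at `l`, and Frobenius at `l` is `T_l` -/
theorem Ga.unl (h : Ga M i ℓ₀ t d) (H : GT O) (hK : HKV O) (hV : DESCV O) (lv : Lv M ℓ₀)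
    (h3 : 3 ≤ M₀) {l : ℕ} (hl : l.Prime) (hM : ¬ l ∣ 2 * M₀) (v : Xo O M i ℓ₀)
    (hv : (v : FT M (RD O)) ∈ Iv O _ (Kq M M₀)) :
    (∀ σ, G.Inert l σ → d σ v = v ∧ ∀ g, t (g * σ) v = t g v) ∧
    ∃ v₀ ∈ Xo O M₀ i ℓ₀, (v : FT M (RD O)) = V.ifl O _ hd v₀ ∧ ∀ φ, IsFrob l φ →
      (t φ v : FT M (RD O)) = V.ifl O _ hd (T2 O _ i l (cl M₀ l) v₀) ∧
      (d φ v : FT M (RD O)) = V.ifl O _ hd (S2 O _ i l (cl M₀ l) v₀) := by
  obtain ⟨t₀, d₀, h₀⟩ := H M₀ i ℓ₀ (lv.of_dvd hd h3)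
  obtain ⟨v₀, h1, e⟩ := (Xo_ifl hd hK hV lv h3).ge ⟨v.2, hv⟩
  have k := fun g => h₀.ifl hd h g ⟨v₀, h1⟩ v e.symm
  refine ⟨fun σ hσ => ?_, v₀, h1, e.symm, fun φ hφ => ?_⟩
  · obtain ⟨a, b⟩ := h₀.unr l hl hM σ hσ
    exact ⟨Subtype.ext (by rw [(k σ).2, a, ← e]; rfl),
      fun g => Subtype.ext (by rw [(k _).1, (k g).1, b])⟩
  · rw [(k φ).1, (k φ).2, (h₀.fr hl hM hφ _).1, (h₀.fr hl hM hφ _).2]
    exact ⟨rfl, rfl⟩

end level

end Vale.Agent.P022S.Gt
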